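import Vale.Agent.P146.H327.Deep5
import Vale.Agent.P146.H785.GridD

/-!
Deep layers of the free energy, part 6: the signed overlap of the pairs of replicas of the system
without the row `b` is close to a number at every level, at every position; the errors are the
second differences of the functional in the exponents, the conditional fluctuation of the
projection on the direction, and the length of the layers.
-/

open MeasureTheory ProbabilityTheory

namespace Vale.Agent.P146.H327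

open Vale.Agent.P157.Lv Vale.Agent.P146.H425 Vale.Agent.P146.H785 Vale.Agent.P146.H325
open Vale.Agent.P146.H332 (sum_pairs lz)
open Vale.Agent.P146.R1 (FD TD pairD dsec c11_FD eg_Ax Dz)
open Vale.Agent.P146.H941 (Rt gm rt_lz)

set_option linter.unusedSectionVars false

/-! ### general facts on pairs -/

section gen

variable {κ : Type} [Fintype κ] [DecidableEq κ] {X : Type} [Fintype X] {ι : Type} [Fintype ι]
  {F : (κ → ℝ) → ℝ} {D : κ → (κ → ℝ) → ℝ} {H : κ → κ → (κ → ℝ) → ℝ}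
  {mu : (κ → ℝ) → X → ℝ} {S : κ → X → ℝ} {τ : ι → X → ℝ} {B L B2 k q x : ℝ} {m σ : ℕ → ℝ}
  {i j J : ℕ} {f g : X → X → ℝ}

variable (h : Rt k 1 S F D H mu B L B2) (hE : R1.Exs m J x)
include h hE

lemma pv_lw (hi : i ≤ J) : Pv (lw F mu m σ i) := (lev_FD (σ := σ) h hE hi).pv

lemma pairD_mono (hi : i ≤ J) (hle : ∀ x x', f x x' ≤ g x x') (z : κ → ℝ) :
    pairD F (fun x u => mu u x) m σ J i f z ≤ pairD F (fun x u => mu u x) m σ J i g z := by
  have hp := pv_lw (σ := σ) h hE hi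
  exact TO_mono (σ := σ) h.c2.c1 (fun t ht => hE.pos t ht) (show i + (J - i) ≤ J by omega)
    (hp.eg_pm f) (hp.eg_pm g) (fun u => hp.pm_mono hle u) z

lemma pairD_const (hi : i ≤ J) (c : ℝ) (z : κ → ℝ) :
    pairD F (fun x u => mu u x) m σ J i (fun _ _ => c) z = c := by
  have hp := pv_lw (σ := σ) h hE hi
  rw [pairD_eq]
  have e : pm (lw F mu m σ i) (fun _ _ => c) = fun _ => c := funext fun u => hp.pm_const c u
  rw [e]
  exact TO_const (σ := σ) h.c2.c1 (fun t ht => hE.pos t ht) (show i + (J - i) ≤ J by omega) c z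

lemma pairD_nonneg (hi : i ≤ J) (hle : ∀ x x', 0 ≤ f x x') (z : κ → ℝ) :
    0 ≤ pairD F (fun x u => mu u x) m σ J i f z := by
  rw [← pairD_const (σ := σ) h hE hi 0 z]
  exact pairD_mono h hE hi hle z

/-- Cauchy-Schwarz for pairs -/
lemma pairD_abs_le (hi : i ≤ J) (f : X → X → ℝ) (z : κ → ℝ) :
    pairD F (fun x u => mu u x) m σ J i (fun x x' => |f x x'|) z ≤
      √(pairD F (fun x u => mu u x) m σ J i (fun x x' => f x x' ^ 2) z) := by
  set A := pairD F (fun x u => mu u x) m σ J i (fun x x' => f x x' ^ 2) z with hA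
  set M := pairD F (fun x u => mu u x) m σ J i (fun x x' => |f x x'|) z with hM
  have hA0 : 0 ≤ A := pairD_nonneg h hE hi (fun _ _ => sq_nonneg _) z
  have hM0 : 0 ≤ M := pairD_nonneg h hE hi (fun _ _ => abs_nonneg _) z
  refine Real.le_sqrt_of_sq_le ?_
  -- `2 M |f| ≤ M² + f²`
  have hp := pv_lw (σ := σ) h hE hi
  have h1 := pairD_mono (σ := σ) h hE hi (f := fun x x' => (2 * M) * |f x x'| + -(M ^ 2))
    (g := fun x x' => f x x' ^ 2) (fun x x' => by
      have := sq_abs (f x x')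
      nlinarith [sq_nonneg (|f x x'| - M)]) z
  have h2 : pairD F (fun x u => mu u x) m σ J i (fun x x' => (2 * M) * |f x x'| + -(M ^ 2)) z =
      (2 * M) * M + -(M ^ 2) := by
    rw [pairD_eq]
    have e : pm (lw F mu m σ i) (fun x x' => (2 * M) * |f x x'| + -(M ^ 2)) =
        fun u => (2 * M) * pm (lw F mu m σ i) (fun x x' => |f x x'|) u + -(M ^ 2) := by
      funext u
      rw [pm_add, pm_const_mul, hp.pm_const]
    rw [e, TO_add (σ := σ) h.c2.c1 (fun t ht => hE.pos t ht) (show i + (J - i) ≤ J by omega)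
      ((hp.eg_pm _).const_mul _) (EG.const _), TO_const_mul,
      TO_const (σ := σ) h.c2.c1 (fun t ht => hE.pos t ht) (show i + (J - i) ≤ J by omega)]
    rfl
  rw [h2] at h1
  nlinarith

lemma bb_eq_pairD (τ : ι → X → ℝ) (z : κ → ℝ) : bb F mu m σ J τ i z =
    pairD F (fun x u => mu u x) m σ J i (fun x x' => (∑ j, τ j x * τ j x') ^ 2) z := by
  rw [pairD_eq]
  have e : pm (lw F mu m σ i) (fun x x' => (∑ j, τ j x * τ j x') ^ 2) =
      Bq (lw F mu m σ i) τ := funext fun u => pm_sq τ u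
  rw [e]
  rfl

/-- the mean squared overlap increases with the number of shared layers -/
lemma bb_anti (hi : i < J) (τ : ι → X → ℝ) (z : κ → ℝ) :
    bb F mu m σ J τ (i + 1) z ≤ bb F mu m σ J τ i z := by
  have lv := lev_FD (σ := σ) h hE hi.le
  have lv1 := lev_FD (σ := σ) h hE (i := i + 1) (by omega)
  obtain ⟨L', B2', c2⟩ := lv.c2
  have hl := c2.c1.lip
  have hB := c2.c1.B0
  obtain ⟨j, hj⟩ : ∃ j, J - i = j + 1 := ⟨J - i - 1, by omega⟩
  have hj' : J - (i + 1) = j := by omega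
  unfold bb
  rw [hj, hj', TO_peel]
  refine TO_mono (σ := σ) h.c2.c1 (fun t ht => hE.pos t ht) (show i + 1 + j ≤ J by omega)
    (lv1.pv.eg_Bq τ) (eg_Ax c2.c1 (lv.pv.eg_Bq τ) _ _) (fun w => ?_) z
  unfold Bq
  rw [Ax_sum hl hB _ fun j _ => EG.sum _ fun l _ => (lv.pv.eg_mn _).pow 2]
  refine Finset.sum_le_sum fun j _ => ?_
  rw [Ax_sum hl hB _ fun l _ => (lv.pv.eg_mn _).pow 2]
  refine Finset.sum_le_sum fun l _ => ?_
  have h1 := Ax_sq_le hl hB (lv.pv.eg_mn (fun x => τ j x * τ l x)) (m i) (σ i) w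
  rw [← mn_nx hl hB lv.pv] at h1
  refine h1.trans (le_of_eq ?_)
  congr 1
  funext u
  ring

/-- the fluctuation of the root of the mean squared overlap -/
lemma TO_sqrt_le (hi : i + j ≤ J) {c : ℝ} (hc : 0 ≤ c) (τ : ι → X → ℝ) (z : κ → ℝ) :
    TO F m σ i j (fun w => (√(Bq (lw F mu m σ i) τ w) - √c) ^ 2) z ≤
      TO F m σ i j (fun w => |Bq (lw F mu m σ i) τ w - c|) z := by
  have hp := pv_lw (σ := σ) h hE (i := i) (by omega)
  have eB1 : EG (Bq (lw F mu m σ i) τ) := hp.eg_Bq τ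
  have e1 : EG fun w => |Bq (lw F mu m σ i) τ w - c| := by
    refine (eB1.sub (EG.const c)).mono (eB1.meas.sub measurable_const).abs fun w => ?_
    rw [abs_abs]
  have hle : ∀ w, (√(Bq (lw F mu m σ i) τ w) - √c) ^ 2 ≤ |Bq (lw F mu m σ i) τ w - c| := by
    intro w
    have h1 := Real.sqrt_nonneg (Bq (lw F mu m σ i) τ w)
    have h2 := Real.sqrt_nonneg c
    have h3 := Real.sq_sqrt (Bq_nonneg (μ := lw F mu m σ i) (τ := τ) w)
    have h4 := Real.sq_sqrt hc
    set a := √(Bq (lw F mu m σ i) τ w)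
    set d := √c
    rw [← h3, ← h4]
    have e : a ^ 2 - d ^ 2 = (a - d) * (a + d) := by ring
    rw [e, abs_mul, abs_of_nonneg (show 0 ≤ a + d by positivity), ← sq_abs (a - d), sq]
    refine mul_le_mul_of_nonneg_left ?_ (abs_nonneg _)
    rw [abs_le]
    constructor <;> linarith
  have e2 : EG fun w => (√(Bq (lw F mu m σ i) τ w) - √c) ^ 2 := by
    refine e1.mono ((eB1.meas.sqrt.sub measurable_const).pow_const 2) fun w => ?_
    rw [abs_of_nonneg (sq_nonneg _), abs_abs]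
    exact hle w
  exact TO_mono (σ := σ) h.c2.c1 (fun t ht => hE.pos t ht) hi e2 e1 hle z

end gen

/-! ### the system without the row `b` -/

section sk

variable {n : ℕ} {b : Fin n} {v : Fin n → ℝ} {Λ k q x a h : ℝ} {m σ : ℕ → ℝ} {i J : ℕ}
  {f g : (Fin n → ℤˣ) → (Fin n → ℤˣ) → ℝ}

/-- The mean of `ψ` over a pair of configurations of the system without the row `b`. -/
noncomputable def PB (b : Fin n) (k : ℝ) (m σ : ℕ → ℝ) (J i : ℕ)
    (ψ : (Fin n → ℤˣ) → (Fin n → ℤˣ) → ℝ) (z : Pair n → ℝ) : ℝ :=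
  pairD (lz k (Sb b)) (fun a u => gm k (Sb b) u a) m σ J i ψ z

/-- The mean squared overlap of the system without the row `b`. -/
noncomputable def RB (b : Fin n) (k : ℝ) (m σ : ℕ → ℝ) (J i : ℕ) (z : Pair n → ℝ) : ℝ :=
  PB b k m σ J i (fun τ τ' => Rb b τ τ' ^ 2) z

lemma sum_Sb (hn : 0 < n) (τ τ' : Fin n → ℤˣ) : ∑ e, Sb b e τ * Sb b e τ' =
    (n : ℝ) ^ 2 / 2 * Rb b τ τ' ^ 2 - ((n : ℝ) - 1) / 2 := by
  have hn' : (n : ℝ) ≠ 0 := by exact_mod_cast hn.ne'
  set G : Fin n → Fin n → ℝ := fun p r => if p = r then 0 else if p = b ∨ r = b then 0 else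
    (sp τ p * sp τ' p) * (sp τ r * sp τ' r) with hG
  have g1 := sum_pairs G (fun p r => by
    simp only [hG]
    by_cases h : p = r
    · rw [if_pos h, if_pos h.symm]
    · rw [if_neg h, if_neg (Ne.symm h)]
      by_cases h' : p = b ∨ r = b
      · rw [if_pos h', if_pos (Or.symm h')]
      · rw [if_neg h', if_neg fun h'' => h' (Or.symm h'')]
        ring) (fun p => by simp [hG])
  have g2 : ∀ e : Pair n, G e.1.1 e.1.2 = Sb b e τ * Sb b e τ' := by
    intro e
    have hne : e.1.1 ≠ e.1.2 := e.2.ne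
    simp only [hG, if_neg hne]
    unfold Sb
    by_cases h' : e.1.1 = b ∨ e.1.2 = b
    · rw [if_pos h', if_pos (mem_row.2 h'), zero_mul]
    · rw [if_neg h', if_neg fun h'' => h' (mem_row.1 h'')]
      unfold SkS
      rw [if_neg fun h'' => h' (mem_row.1 h'')]
      ring
  simp only [g2] at g1
  have g3 : ((n : ℝ) * Rb b τ τ') ^ 2 = ∑ p, ∑ r, G p r + ((n : ℝ) - 1) := by
    have a0 : (n : ℝ) * Rb b τ τ' = ∑ j, (if j = b then 0 else sp τ j * sp τ' j) := by
      unfold Rb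
      field_simp
    have a1 : ∑ p : Fin n, ∑ r : Fin n, (if p = r then (if p = b then (0 : ℝ) else 1) else 0) =
        (n : ℝ) - 1 := by
      have : ∀ p : Fin n, ∑ r : Fin n, (if p = r then (if p = b then (0 : ℝ) else 1) else 0) =
          1 - (if p = b then 1 else 0) := by
        intro p
        rw [Finset.sum_ite_eq]
        simp only [Finset.mem_univ, if_true]
        split_ifs <;> norm_num
      simp only [this, Finset.sum_sub_distrib, Finset.sum_const, Finset.card_univ,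
        Fintype.card_fin, nsmul_eq_mul, mul_one, Finset.sum_ite_eq', Finset.mem_univ, if_true]
    rw [a0, sq, Finset.sum_mul_sum, ← a1, ← Finset.sum_add_distrib]
    refine Finset.sum_congr rfl fun p _ => ?_
    rw [← Finset.sum_add_distrib]
    refine Finset.sum_congr rfl fun r _ => ?_
    simp only [hG]
    by_cases h : p = r
    · subst h
      rw [if_pos rfl, if_pos rfl]
      by_cases h' : p = b
      · rw [if_pos h', if_pos h']; ring
      · rw [if_neg h', if_neg h']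
        have h1 := sp_mul_self τ p
        have h2 := sp_mul_self τ' p
        linear_combination (sp τ' p * sp τ' p) * h1 + h2
    · rw [if_neg h, if_neg h]
      by_cases h1 : p = b
      · rw [if_pos h1, if_pos (Or.inl h1)]; ring
      · by_cases h2 : r = b
        · rw [if_pos h2, if_pos (Or.inr h2)]; ring
        · rw [if_neg h1, if_neg h2, if_neg (not_or.2 ⟨h1, h2⟩)]; ring
  rw [mul_pow] at g3
  linarith

lemma RB_eq (hn : 0 < n) (z : Pair n → ℝ) : RB b k m σ J i z =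
    TO (lz k (Sb b)) m σ i (J - i) (Bq (lw (lz k (Sb b)) (gm k (Sb b)) m σ i) (gb b)) z := by
  unfold RB PB
  have e : (fun τ τ' => Rb b τ τ' ^ 2) =
      fun τ τ' => (∑ j, gb b j τ * gb b j τ') ^ 2 := by
    funext τ τ'
    rw [sum_gb hn]
  rw [e, pairD_eq]
  congr 1
  funext u
  exact pm_sq (gb b) u

variable (hE : R1.Exs m J x)
include hE

lemma RB_nonneg (hi : i ≤ J) (z : Pair n → ℝ) : 0 ≤ RB b k m σ J i z :=
  pairD_nonneg (rt_lz k (Sb b)) hE hi (fun _ _ => sq_nonneg _) z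

lemma RB_le_one (hn : 0 < n) (hi : i ≤ J) (z : Pair n → ℝ) : RB b k m σ J i z ≤ 1 := by
  have h1 := pairD_mono (σ := σ) (rt_lz k (Sb b)) hE hi
    (f := fun τ τ' => Rb b τ τ' ^ 2) (g := fun _ _ => 1) (fun τ τ' => by
      rw [sq_le_one_iff_abs_le_one]
      exact abs_Rb hn τ τ') z
  rwa [pairD_const (rt_lz k (Sb b)) hE hi] at h1

lemma RB_anti (hn : 0 < n) (hi : i < J) (z : Pair n → ℝ) :
    RB b k m σ J (i + 1) z ≤ RB b k m σ J i z := by
  rw [RB_eq hn, RB_eq hn]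
  exact bb_anti (rt_lz k (Sb b)) hE hi (gb b) z

/-- **One level.** -/
theorem level_sk (hn : 0 < n) (hi : i < J) (hk : k ≠ 0) (hs : σ i ≠ 0) (hv : ∑ j, v j ^ 2 = 1)
    (hvb : v b = 0) (hΛ : 0 < Λ) (hh : 0 < h) (hlh : h < m i)
    (hk1 : h / 2 * (σ i ^ 2 * (k ^ 2 * (n : ℝ) ^ 2)) ≤ 1) (ha : 0 < a) (ha1 : a ≤ 1)
    (hma : ∀ j, i < j → j < J → a ≤ m j) (z : Pair n → ℝ) :
    PB b k m σ J i (fun τ τ' => (sgb v τ * sgb v τ' * Rb b τ τ' -
        √(RB b k m σ J (i + 1) z)) ^ 2) z ≤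
      5 * (RB b k m σ J i z - RB b k m σ J (i + 1) z) +
        4 / (h / 4 * σ i ^ 2 * (k ^ 2 * (n : ℝ) ^ 2)) *
          (dsec (lz k (Sb b)) m σ J i h z + √(5 / a * dsec (lz k (Sb b)) m σ J i h z)) +
        12 * (2 / (n * Λ) / (R1.mp m i * m i * σ i ^ 2 * k ^ 2) +
          mn (lw (lz k (Sb b)) (gm k (Sb b)) m σ J) (fun τ => (Vb v Λ τ ^ 2 - 1) ^ 2) z) := by
  have hn' : (0 : ℝ) < n := by exact_mod_cast hn
  set c := RB b k m σ J (i + 1) z with hc
  have hc0 : 0 ≤ c := RB_nonneg hE (by omega) z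
  have h1 := pairD_le (σ := σ) (rt_lz k (Sb b)) hE hi hk hs (Real.sqrt_nonneg c)
    (show (0 : ℝ) ≤ 2 / (n * Λ) by positivity) (sgb_sq (v := v)) (sgb_Vb (v := v) hΛ)
    (sum_gb_sq_le (b := b) hn) (lin_b hn hv hvb hΛ) z
  have h2 := TO_sqrt_le (σ := σ) (rt_lz k (Sb b)) hE
    (show i + 1 + (J - (i + 1)) ≤ J by omega) hc0 (gb b) z
  have hmp : ∀ t < J, 0 < m t := fun t ht => hE.pos t ht
  -- (D3)
  have hBd : ∀ z, ∑ e, Dz k (Sb b) e z ^ 2 ≤ k ^ 2 * (n : ℝ) ^ 2 := by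
    intro z
    refine (bd_lz k (Sb b) (fun e τ => ?_) z).trans ?_
    · unfold Sb
      split_ifs
      · simp
      · unfold SkS
        rw [abs_mul, abs_sp, abs_sp, one_mul]
    · refine mul_le_mul_of_nonneg_left ?_ (sq_nonneg k)
      have h3 : Fintype.card (Pair n) ≤ Fintype.card (Fin n × Fin n) :=
        Fintype.card_subtype_le _
      rw [Fintype.card_prod, Fintype.card_fin] at h3
      have h4 : (Fintype.card (Pair n) : ℝ) ≤ (n * n : ℕ) := by exact_mod_cast h3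
      rw [sq]
      push_cast at h4
      exact h4
  have h3 := d3P k (Sb b) (m := m) (σ := σ) (J := J) (l := i) (h := h)
    (c := (n : ℝ) ^ 2 / 2) (c0 := ((n : ℝ) - 1) / 2) (ψ := fun τ τ' => Rb b τ τ' ^ 2) hmp hi hh.le
    hlh hBd hk1 ha ha1 hma (by positivity) (fun τ τ' => sum_Sb hn τ τ') z
  have e1 : ∀ i z, pairD (lz k (Sb b)) (gw k (Sb b)) m σ J i (fun τ τ' => Rb b τ τ' ^ 2) z =
      RB b k m σ J i z := fun i z => rfl
  have e2 : ∀ u, qD k (Sb b) m σ (i + 1) (fun τ τ' => Rb b τ τ' ^ 2) u =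
      Bq (lw (lz k (Sb b)) (gm k (Sb b)) m σ (i + 1)) (gb b) u := by
    intro u
    rw [← pm_sq]
    have e : (fun τ τ' => (∑ j, gb b j τ * gb b j τ') ^ 2) = fun τ τ' => Rb b τ τ' ^ 2 := by
      funext τ τ'
      rw [sum_gb hn]
    rw [e]
    rfl
  rw [e1, e1] at h3
  simp only [e2] at h3
  have e3 : oD (lz k (Sb b)) m σ J (i + 1) (fun w =>
      |Bq (lw (lz k (Sb b)) (gm k (Sb b)) m σ (i + 1)) (gb b) w - RB b k m σ J (i + 1) z|) z =
      TO (lz k (Sb b)) m σ (i + 1) (J - (i + 1)) (fun w =>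
        |Bq (lw (lz k (Sb b)) (gm k (Sb b)) m σ (i + 1)) (gb b) w - c|) z := rfl
  rw [e3] at h3
  set T := TO (lz k (Sb b)) m σ (i + 1) (J - (i + 1)) (fun w =>
        |Bq (lw (lz k (Sb b)) (gm k (Sb b)) m σ (i + 1)) (gb b) w - c|) z with hT
  set Δ := RB b k m σ J i z - c with hΔ
  have e4 : bb (lz k (Sb b)) (gm k (Sb b)) m σ J (gb b) i z -
      bb (lz k (Sb b)) (gm k (Sb b)) m σ J (gb b) (i + 1) z = Δ := by
    rw [hΔ, hc, RB_eq hn, RB_eq hn]
    rfl
  rw [e4] at h1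
  have e5 : (fun x x' => (sgb v x * sgb v x' * ∑ j, gb b j x * gb b j x' - √c) ^ 2) =
      fun τ τ' => (sgb v τ * sgb v τ' * Rb b τ τ' - √c) ^ 2 := by
    funext τ τ'
    rw [sum_gb hn]
  rw [e5] at h1
  set k0 := h / 4 * σ i ^ 2 * (k ^ 2 * (n : ℝ) ^ 2) with hk0
  have hk0p : 0 < k0 := by positivity
  set ds := dsec (lz k (Sb b)) m σ J i h z with hds
  have h4 : k0 * T ≤ 2 * (ds + k0 * Δ + √(5 / a * ds)) := by
    have : h / 2 * σ i ^ 2 * (k ^ 2 * ((n : ℝ) ^ 2 / 2)) = k0 := by rw [hk0]; ring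
    rw [this] at h3
    exact h3
  have h5 : T ≤ 2 * Δ + 2 / k0 * (ds + √(5 / a * ds)) := by
    have : k0 * T ≤ k0 * (2 * Δ + 2 / k0 * (ds + √(5 / a * ds))) := by
      refine h4.trans (le_of_eq ?_)
      field_simp
      ring
    exact le_of_mul_le_mul_left this hk0p
  have h6 : 4 / k0 * (ds + √(5 / a * ds)) = 2 * (2 / k0 * (ds + √(5 / a * ds))) := by ring
  rw [h6]
  have h7 : PB b k m σ J i (fun τ τ' => (sgb v τ * sgb v τ' * Rb b τ τ' - √c) ^ 2) z =
      pairD (lz k (Sb b)) (fun x u => gm k (Sb b) u x) m σ J i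
        (fun τ τ' => (sgb v τ * sgb v τ' * Rb b τ τ' - √c) ^ 2) z := rfl
  rw [h7]
  refine h1.trans ?_
  linarith

/-- the numbers of the levels -/
noncomputable def qB (b : Fin n) (k : ℝ) (m σ : ℕ → ℝ) (J i : ℕ) (z : Pair n → ℝ) : ℝ :=
  if i < J then √(RB b k m σ J (i + 1) z) else 0

/-- the error of the level `i` without the length of the layer -/
noncomputable def eB (b : Fin n) (v : Fin n → ℝ) (k Λ a h : ℝ) (m σ : ℕ → ℝ) (J i : ℕ)
    (z : Pair n → ℝ) : ℝ :=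
  4 / (h / 4 * σ i ^ 2 * (k ^ 2 * (n : ℝ) ^ 2)) *
      (dsec (lz k (Sb b)) m σ J i h z + √(5 / a * dsec (lz k (Sb b)) m σ J i h z)) +
    12 * (2 / (n * Λ) / (R1.mp m i * m i * σ i ^ 2 * k ^ 2) +
      ∑ τ, TD (lz k (Sb b)) m σ (fun u => gm k (Sb b) u τ) J z * (Vb v Λ τ ^ 2 - 1) ^ 2)

omit hE in
lemma qB_nonneg (z : Pair n → ℝ) : 0 ≤ qB b k m σ J i z := by
  unfold qB
  split_ifs
  · exact Real.sqrt_nonneg _
  · exact le_rfl

lemma qB_le_one (hn : 0 < n) (z : Pair n → ℝ) : qB b k m σ J i z ≤ 1 := by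
  unfold qB
  split_ifs with h
  · rw [Real.sqrt_le_one]
    exact RB_le_one hE hn (by omega) z
  · exact zero_le_one

lemma qB_anti (hn : 0 < n) (z : Pair n → ℝ) : qB b k m σ J (i + 1) z ≤ qB b k m σ J i z := by
  by_cases h : i + 1 < J
  · unfold qB
    rw [if_pos h, if_pos (by omega)]
    exact Real.sqrt_le_sqrt (RB_anti hE hn h z)
  · have : qB b k m σ J (i + 1) z = 0 := by
      unfold qB
      rw [if_neg h]
    rw [this]
    exact qB_nonneg z

/-- **(K5), one level.** -/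
theorem level_abs (hn : 0 < n) (hi : i < J) (hk : k ≠ 0) (hs : σ i ≠ 0) (hv : ∑ j, v j ^ 2 = 1)
    (hvb : v b = 0) (hΛ : 0 < Λ) (hh : 0 < h) (hlh : h < m i)
    (hk1 : h / 2 * (σ i ^ 2 * (k ^ 2 * (n : ℝ) ^ 2)) ≤ 1) (ha : 0 < a) (ha1 : a ≤ 1)
    (hma : ∀ j, i < j → j < J → a ≤ m j) (z : Pair n → ℝ) :
    PB b k m σ J i (fun τ τ' => |sgb v τ * sgb v τ' * Rb b τ τ' - qB b k m σ J i z|) z ≤
      √(5 * (RB b k m σ J i z - RB b k m σ J (i + 1) z) + eB b v k Λ a h m σ J i z) := by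
  have h1 := level_sk (v := v) hE hn hi hk hs hv hvb hΛ hh hlh hk1 ha ha1 hma z
  have h2 := pairD_abs_le (σ := σ) (rt_lz k (Sb b)) hE hi.le
    (fun τ τ' => sgb v τ * sgb v τ' * Rb b τ τ' - √(RB b k m σ J (i + 1) z)) z
  have h3 : qB b k m σ J i z = √(RB b k m σ J (i + 1) z) := by
    unfold qB
    rw [if_pos hi]
  rw [h3]
  refine h2.trans (Real.sqrt_le_sqrt ?_)
  refine h1.trans (le_of_eq ?_)
  unfold eB
  have e1 : mn (lw (lz k (Sb b)) (gm k (Sb b)) m σ J) (fun τ => (Vb v Λ τ ^ 2 - 1) ^ 2) z =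
      ∑ τ, TD (lz k (Sb b)) m σ (fun u => gm k (Sb b) u τ) J z * (Vb v Λ τ ^ 2 - 1) ^ 2 := rfl
  rw [e1]
  ring

omit hE in
/-- Cauchy-Schwarz with weights -/
lemma sum_sqrt_le {J : ℕ} {p A : ℕ → ℝ} (hp : ∀ i < J, 0 ≤ p i)
    (hp1 : ∑ i ∈ Finset.range J, p i ≤ 1) (hA : ∀ i < J, 0 ≤ A i) :
    ∑ i ∈ Finset.range J, p i * √(A i) ≤ √(∑ i ∈ Finset.range J, p i * A i) := by
  refine Real.le_sqrt_of_sq_le ?_
  have h1 := Finset.sum_mul_sq_le_sq_mul_sq (Finset.range J) (fun i => √(p i))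
    (fun i => √(p i) * √(A i))
  have e1 : ∀ i ∈ Finset.range J, √(p i) * (√(p i) * √(A i)) = p i * √(A i) := by
    intro i hi
    rw [← mul_assoc, Real.mul_self_sqrt (hp i (Finset.mem_range.1 hi))]
  have e2 : ∀ i ∈ Finset.range J, √(p i) ^ 2 = p i := fun i hi =>
    Real.sq_sqrt (hp i (Finset.mem_range.1 hi))
  have e3 : ∀ i ∈ Finset.range J, (√(p i) * √(A i)) ^ 2 = p i * A i := fun i hi => by
    rw [mul_pow, Real.sq_sqrt (hp i (Finset.mem_range.1 hi)),
      Real.sq_sqrt (hA i (Finset.mem_range.1 hi))]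
  rw [Finset.sum_congr rfl e1, Finset.sum_congr rfl e2, Finset.sum_congr rfl e3] at h1
  refine h1.trans ?_
  have h2 : 0 ≤ ∑ i ∈ Finset.range J, p i * A i :=
    Finset.sum_nonneg fun i hi => mul_nonneg (hp i (Finset.mem_range.1 hi))
      (hA i (Finset.mem_range.1 hi))
  nlinarith

/-- **(K5)**: the sum over the levels. -/
theorem d23 (hn : 0 < n) (hk : k ≠ 0) (hs : ∀ i < J, σ i ≠ 0) (hv : ∑ j, v j ^ 2 = 1)
    (hvb : v b = 0) (hΛ : 0 < Λ) (hh : 0 < h) (hlh : ∀ i < J, h < m i)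
    (hk1 : ∀ i < J, h / 2 * (σ i ^ 2 * (k ^ 2 * (n : ℝ) ^ 2)) ≤ 1) (ha : 0 < a) (ha1 : a ≤ 1)
    (hma : ∀ j < J, a ≤ m j) {p : ℕ → ℝ} {P : ℝ} (hp : ∀ i < J, 0 ≤ p i)
    (hp1 : ∑ i ∈ Finset.range J, p i ≤ 1) (hpP : ∀ i < J, p i ≤ P) (z : Pair n → ℝ) :
    ∑ i ∈ Finset.range J, p i * PB b k m σ J i
        (fun τ τ' => |sgb v τ * sgb v τ' * Rb b τ τ' - qB b k m σ J i z|) z ≤
      √(5 * P + ∑ i ∈ Finset.range J, p i * eB b v k Λ a h m σ J i z) := by
  rcases Nat.eq_zero_or_pos J with hJ | hJ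
  · subst hJ
    simp only [Finset.range_zero, Finset.sum_empty]
    exact Real.sqrt_nonneg _
  have hP : 0 ≤ P := (hp 0 hJ).trans (hpP 0 hJ)
  set A : ℕ → ℝ := fun i =>
    5 * (RB b k m σ J i z - RB b k m σ J (i + 1) z) + eB b v k Λ a h m σ J i z with hA
  have hA0 : ∀ i < J, 0 ≤ A i := by
    intro i hi
    have h1 := level_sk (v := v) hE hn hi hk (hs i hi) hv hvb hΛ hh (hlh i hi) (hk1 i hi) ha ha1
      (fun j _ hj => hma j hj) z
    have h2 : 0 ≤ PB b k m σ J i (fun τ τ' => (sgb v τ * sgb v τ' * Rb b τ τ' -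
        √(RB b k m σ J (i + 1) z)) ^ 2) z :=
      pairD_nonneg (rt_lz k (Sb b)) hE hi.le (fun _ _ => sq_nonneg _) z
    refine (h2.trans h1).trans (le_of_eq ?_)
    simp only [hA]
    unfold eB
    have e1 : mn (lw (lz k (Sb b)) (gm k (Sb b)) m σ J) (fun τ => (Vb v Λ τ ^ 2 - 1) ^ 2) z =
        ∑ τ, TD (lz k (Sb b)) m σ (fun u => gm k (Sb b) u τ) J z * (Vb v Λ τ ^ 2 - 1) ^ 2 := rfl
    rw [e1]
    ring
  have h1 : ∑ i ∈ Finset.range J, p i * PB b k m σ J i
        (fun τ τ' => |sgb v τ * sgb v τ' * Rb b τ τ' - qB b k m σ J i z|) z ≤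
      ∑ i ∈ Finset.range J, p i * √(A i) := by
    refine Finset.sum_le_sum fun i hi => ?_
    have hi' := Finset.mem_range.1 hi
    exact mul_le_mul_of_nonneg_left (level_abs (v := v) hE hn hi' hk (hs i hi') hv hvb hΛ hh
      (hlh i hi') (hk1 i hi') ha ha1 (fun j _ hj => hma j hj) z) (hp i hi')
  refine h1.trans ((sum_sqrt_le hp hp1 hA0).trans (Real.sqrt_le_sqrt ?_))
  have h2 : ∑ i ∈ Finset.range J, p i * A i =
      5 * ∑ i ∈ Finset.range J, p i * (RB b k m σ J i z - RB b k m σ J (i + 1) z) +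
        ∑ i ∈ Finset.range J, p i * eB b v k Λ a h m σ J i z := by
    rw [Finset.mul_sum, ← Finset.sum_add_distrib]
    refine Finset.sum_congr rfl fun i _ => ?_
    simp only [hA]
    ring
  have h3 : ∑ i ∈ Finset.range J, p i * (RB b k m σ J i z - RB b k m σ J (i + 1) z) ≤ P := by
    calc ∑ i ∈ Finset.range J, p i * (RB b k m σ J i z - RB b k m σ J (i + 1) z) ≤
        ∑ i ∈ Finset.range J, P * (RB b k m σ J i z - RB b k m σ J (i + 1) z) := by
          refine Finset.sum_le_sum fun i hi => ?_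
          have hi' := Finset.mem_range.1 hi
          exact mul_le_mul_of_nonneg_right (hpP i hi') (sub_nonneg.2 (RB_anti hE hn hi' z))
      _ = P * (RB b k m σ J 0 z - RB b k m σ J J z) := by
          rw [← Finset.mul_sum]
          congr 1
          have := Finset.sum_range_sub' (fun i => RB b k m σ J i z) J
          exact this
      _ ≤ P * 1 := by
          refine mul_le_mul_of_nonneg_left ?_ hP
          have h4 := RB_le_one (b := b) (k := k) (σ := σ) hE hn (Nat.zero_le J) z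
          have h5 := RB_nonneg (b := b) (k := k) (σ := σ) hE (le_refl J) z
          linarith
      _ = P := mul_one P
  rw [h2]
  linarith

end sk

end Vale.Agent.P146.H327
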