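import Mathlib

set_option linter.all false

/-!
(S4'), part 1: averaging a function which is convex in each exponent over random exponents.

`A` is a function on the weakly increasing `K`-tuples with values in `{0, …, L + 1}`. The exponents
are the sorted values of `K` independent uniform points of `{1, …, L}`.
-/

open Finset

namespace Vale.Agent.P146.Gp.Avg

variable {K L : ℕ}

/-- The sorted tuple. -/
noncomputable def srt (u : Fin K → ℕ) : Fin K → ℕ := u ∘ Tuple.sort u

theorem srt_mono (u : Fin K → ℕ) : Monotone (srt u) := Tuple.monotone_sort u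

theorem srt_eq {u v : Fin K → ℕ} {σ : Equiv.Perm (Fin K)} (h : u ∘ σ = v) (hv : Monotone v) :
    srt u = v := by
  subst h
  exact Tuple.unique_monotone (Tuple.monotone_sort u) hv

/-- Changing one value. -/
theorem srt_update {w : Fin K → ℕ} {i b : Fin K} {y : ℕ} (hb : srt w b = w i)
    (hm : Monotone (Function.update (srt w) b y)) :
    srt (Function.update w i y) = Function.update (srt w) b y := by
  obtain ⟨σ, hσ⟩ : ∃ σ, σ = Tuple.sort w := ⟨_, rfl⟩
  have hs : ∀ x, srt w x = w (σ x) := fun x => by rw [hσ]; rfl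
  obtain ⟨p, hp⟩ : ∃ p, σ p = i := σ.surjective i
  refine srt_eq (σ := (Equiv.swap p b).trans σ) ?_ hm
  funext x
  show Function.update w i y (σ (Equiv.swap p b x)) = _
  by_cases hx : x = b
  · subst hx
    rw [Equiv.swap_apply_right, hp, Function.update_self, Function.update_self]
  · rw [Function.update_of_ne hx]
    have h1 : σ (Equiv.swap p b x) ≠ i := by
      intro h
      rw [← hp] at h
      have h2 := σ.injective h
      have h3 := congrArg (Equiv.swap p b) h2
      rw [Equiv.swap_apply_self, Equiv.swap_apply_left] at h3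
      exact hx h3
    rw [Function.update_of_ne h1]
    by_cases hxp : x = p
    · subst hxp
      rw [Equiv.swap_apply_left, ← hs b, hb, hs x, hp]
    · rw [Equiv.swap_apply_of_ne_of_ne hxp hx, hs x]

theorem mono_up {v : Fin K → ℕ} (hv : Monotone v) {b : Fin K} (hb : ∀ j, b < j → v b < v j) :
    Monotone (Function.update v b (v b + 1)) := by
  intro j k hjk
  by_cases hk : k = b
  · subst hk
    rw [Function.update_self]
    by_cases hj : j = k
    · subst hj
      rw [Function.update_self]
    · rw [Function.update_of_ne hj]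
      exact (hv hjk).trans (Nat.le_succ _)
  · rw [Function.update_of_ne hk]
    by_cases hj : j = b
    · subst hj
      rw [Function.update_self]
      exact hb k (lt_of_le_of_ne hjk (Ne.symm hk))
    · rw [Function.update_of_ne hj]
      exact hv hjk

theorem mono_dn {v : Fin K → ℕ} (hv : Monotone v) {a : Fin K} (ha : ∀ j, j < a → v j < v a) :
    Monotone (Function.update v a (v a - 1)) := by
  intro j k hjk
  by_cases hj : j = a
  · subst hj
    rw [Function.update_self]
    by_cases hk : k = j
    · subst hk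
      rw [Function.update_self]
    · rw [Function.update_of_ne hk]
      exact (Nat.sub_le _ _).trans (hv hjk)
  · rw [Function.update_of_ne hj]
    by_cases hk : k = a
    · subst hk
      rw [Function.update_self]
      exact Nat.le_sub_one_of_lt (ha j (lt_of_le_of_ne hjk hj))
    · rw [Function.update_of_ne hk]
      exact hv hjk

theorem exists_top {v : Fin K → ℕ} (hv : Monotone v) (i : Fin K) :
    ∃ b, i ≤ b ∧ v b = v i ∧ ∀ j, b < j → v b < v j := by
  have hne : (univ.filter fun j => v j = v i).Nonempty := ⟨i, by simp⟩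
  refine ⟨(univ.filter fun j => v j = v i).max' hne, ?_, ?_, ?_⟩
  · exact Finset.le_max' _ _ (by simp)
  · have := Finset.max'_mem _ hne
    exact (Finset.mem_filter.1 this).2
  · intro j hj
    have h1 := (Finset.mem_filter.1 (Finset.max'_mem _ hne)).2
    refine lt_of_le_of_ne (hv hj.le) fun h => ?_
    have h2 : j ∈ univ.filter fun j => v j = v i := by
      rw [Finset.mem_filter]
      exact ⟨mem_univ _, by rw [← h, h1]⟩
    exact absurd (Finset.le_max' _ _ h2) (not_le.2 hj)

theorem exists_bot {v : Fin K → ℕ} (hv : Monotone v) (i : Fin K) :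
    ∃ a, a ≤ i ∧ v a = v i ∧ ∀ j, j < a → v j < v a := by
  have hne : (univ.filter fun j => v j = v i).Nonempty := ⟨i, by simp⟩
  refine ⟨(univ.filter fun j => v j = v i).min' hne, ?_, ?_, ?_⟩
  · exact Finset.min'_le _ _ (by simp)
  · have := Finset.min'_mem _ hne
    exact (Finset.mem_filter.1 this).2
  · intro j hj
    have h1 := (Finset.mem_filter.1 (Finset.min'_mem _ hne)).2
    refine lt_of_le_of_ne (hv hj.le) fun h => ?_
    have h2 : j ∈ univ.filter fun j => v j = v i := by
      rw [Finset.mem_filter]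
      exact ⟨mem_univ _, by rw [h, h1]⟩
    exact absurd (Finset.min'_le _ _ h2) (not_le.2 hj)

/-- The hypotheses: `A` is convex in each exponent, also at the faces, and its slopes are
between `0` and `c`. -/
structure Cvx (K L : ℕ) (c : ℝ) (A : (Fin K → ℕ) → ℝ) : Prop where
  slope : ∀ v : Fin K → ℕ, Monotone v → (∀ i, v i ≤ L + 1) → ∀ b, v b ≤ L →
    Monotone (Function.update v b (v b + 1)) →
    0 ≤ A (Function.update v b (v b + 1)) - A v ∧ A (Function.update v b (v b + 1)) - A v ≤ c
  conv : ∀ v : Fin K → ℕ, Monotone v → (∀ i, v i ≤ L + 1) → ∀ a b, a ≤ b → v a = v b →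
    1 ≤ v a → v b ≤ L → Monotone (Function.update v a (v a - 1)) →
    Monotone (Function.update v b (v b + 1)) →
    2 * A v ≤ A (Function.update v b (v b + 1)) + A (Function.update v a (v a - 1))

theorem srt_le {w : Fin K → ℕ} {M : ℕ} (h : ∀ i, w i ≤ M) (i : Fin K) : srt w i ≤ M := h _

/-- The position of a value in the sorted tuple. -/
theorem srt_pos (w : Fin K → ℕ) (i : Fin K) : ∃ p, srt w p = w i :=
  ⟨(Tuple.sort w).symm i, by unfold srt; simp⟩

variable {c : ℝ} {A : (Fin K → ℕ) → ℝ}

theorem Cvx.g_slope (hA : Cvx K L c A) {w : Fin K → ℕ} (hw : ∀ i, w i ≤ L + 1) {i : Fin K}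
    (hi : w i ≤ L) :
    0 ≤ A (srt (Function.update w i (w i + 1))) - A (srt w) ∧
      A (srt (Function.update w i (w i + 1))) - A (srt w) ≤ c := by
  obtain ⟨p, hp⟩ := srt_pos w i
  obtain ⟨b, -, hb, hb2⟩ := exists_top (srt_mono w) p
  rw [hp] at hb
  have hm := mono_up (srt_mono w) hb2
  rw [← hb, srt_update hb hm]
  exact hA.slope _ (srt_mono w) (srt_le hw) b (by rw [hb]; exact hi) hm

theorem Cvx.g_conv (hA : Cvx K L c A) {w : Fin K → ℕ} (hw : ∀ i, w i ≤ L + 1) {i : Fin K}
    (hi : w i ≤ L) (hi1 : 1 ≤ w i) :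
    2 * A (srt w) ≤ A (srt (Function.update w i (w i + 1))) +
      A (srt (Function.update w i (w i - 1))) := by
  obtain ⟨p, hp⟩ := srt_pos w i
  obtain ⟨b, hpb, hb, hb2⟩ := exists_top (srt_mono w) p
  obtain ⟨a, hap, ha, ha2⟩ := exists_bot (srt_mono w) p
  rw [hp] at hb ha
  have hm := mono_up (srt_mono w) hb2
  have hm' := mono_dn (srt_mono w) ha2
  have e1 : srt (Function.update w i (w i + 1)) =
      Function.update (srt w) b (srt w b + 1) := by
    rw [← hb]
    exact srt_update hb hm
  have e2 : srt (Function.update w i (w i - 1)) =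
      Function.update (srt w) a (srt w a - 1) := by
    rw [← ha]
    exact srt_update ha hm'
  rw [e1, e2]
  exact hA.conv _ (srt_mono w) (srt_le hw) a b (hap.trans hpb) (by rw [ha, hb])
    (by rw [ha]; exact hi1) (by rw [hb]; exact hi) hm' hm

/-- The second difference in the position `l`. -/
def D2 (A : (Fin K → ℕ) → ℝ) (v : Fin K → ℕ) (l : Fin K) : ℝ :=
  A (Function.update v l (v l + 1)) + A (Function.update v l (v l - 1)) - 2 * A v

/-- The values of a configuration. -/
def vl (u : Fin K → Fin L) : Fin K → ℕ := fun i => (u i : ℕ) + 1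

theorem vl_le (u : Fin K → Fin L) (i : Fin K) : vl u i ≤ L := (u i).2

theorem vl_ge (u : Fin K → Fin L) (i : Fin K) : 1 ≤ vl u i := Nat.le_add_left _ _

/-- The symmetrised second difference. -/
noncomputable def E2 (A : (Fin K → ℕ) → ℝ) (u : Fin K → Fin L) (i : Fin K) : ℝ :=
  A (srt (Function.update (vl u) i (vl u i + 1))) +
    A (srt (Function.update (vl u) i (vl u i - 1))) - 2 * A (srt (vl u))

theorem Cvx.E2_nonneg (hA : Cvx K L c A) (u : Fin K → Fin L) (i : Fin K) : 0 ≤ E2 A u i := by
  have := hA.g_conv (w := vl u) (fun j => (vl_le u j).trans (Nat.le_succ _)) (vl_le u i)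
    (vl_ge u i)
  unfold E2
  linarith

/-- Injective configurations: the symmetrised second differences are those of the sorted tuple. -/
theorem E2_sum {u : Fin K → Fin L} (hu : Function.Injective u) :
    StrictMono (srt (vl u)) ∧ ∑ i, E2 A u i = ∑ l, D2 A (srt (vl u)) l := by
  have hinj : Function.Injective (srt (vl u)) := by
    intro a b h
    have h1 : vl u (Tuple.sort (vl u) a) = vl u (Tuple.sort (vl u) b) := h
    unfold vl at h1
    have h2 : u (Tuple.sort (vl u) a) = u (Tuple.sort (vl u) b) := Fin.ext (by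
      have := Nat.succ.inj h1
      exact this)
    exact (Tuple.sort (vl u)).injective (hu h2)
  have hs : StrictMono (srt (vl u)) := (srt_mono _).strictMono_of_injective hinj
  refine ⟨hs, ?_⟩
  rw [← Equiv.sum_comp (Tuple.sort (vl u)) (fun i => E2 A u i)]
  refine Finset.sum_congr rfl fun l _ => ?_
  have hl : srt (vl u) l = vl u (Tuple.sort (vl u) l) := rfl
  unfold E2 D2
  have e1 := srt_update (w := vl u) (i := Tuple.sort (vl u) l) (b := l)
    (y := srt (vl u) l + 1) hl (mono_up (srt_mono _) fun j hj => hs hj)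
  have e2 := srt_update (w := vl u) (i := Tuple.sort (vl u) l) (b := l)
    (y := srt (vl u) l - 1) hl (mono_dn (srt_mono _) fun j hj => hs hj)
  rw [← hl, e1, e2]

theorem tele (g : ℕ → ℝ) (L : ℕ) :
    ∑ x ∈ range L, (g (x + 2) + g x - 2 * g (x + 1)) = (g (L + 1) - g L) - (g 1 - g 0) := by
  induction L with
  | zero => simp
  | succ L ih =>
    rw [Finset.sum_range_succ, ih]
    ring

/-- The sum over one value. -/
theorem Cvx.sum_one (hA : Cvx K L c A) (u : Fin K → Fin L) (i : Fin K) :
    ∑ x : Fin L, E2 A (Function.update u i x) i ≤ c := by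
  rcases Nat.eq_zero_or_pos L with hL | hL
  · subst hL
    exact (u i).elim0
  obtain ⟨g, hg⟩ : ∃ g : ℕ → ℝ, g = fun x => A (srt (Function.update (vl u) i x)) := ⟨_, rfl⟩
  have hval : ∀ x : Fin L, vl (Function.update u i x) = Function.update (vl u) i ((x : ℕ) + 1) := by
    intro x
    funext j
    unfold vl
    by_cases hj : j = i
    · subst hj
      rw [Function.update_self, Function.update_self]
    · rw [Function.update_of_ne hj, Function.update_of_ne hj]
  have hE : ∀ x : Fin L, E2 A (Function.update u i x) i =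
      (fun x : ℕ => g (x + 2) + g x - 2 * g (x + 1)) x := by
    intro x
    unfold E2
    rw [hval x, Function.update_self, Function.update_idem, Function.update_idem, hg]
    rfl
  rw [Finset.sum_congr rfl fun x _ => hE x,
    Fin.sum_univ_eq_sum_range (fun x : ℕ => g (x + 2) + g x - 2 * g (x + 1)) L, tele]
  have hb : ∀ y ≤ L + 1, ∀ j, Function.update (vl u) i y j ≤ L + 1 := by
    intro y hy j
    by_cases hj : j = i
    · subst hj
      rw [Function.update_self]
      exact hy
    · rw [Function.update_of_ne hj]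
      exact (vl_le u j).trans (Nat.le_succ _)
  have h1 := (hA.g_slope (w := Function.update (vl u) i L) (hb L (Nat.le_succ _)) (i := i)
    (by rw [Function.update_self])).2
  have h2 := (hA.g_slope (w := Function.update (vl u) i 0) (hb 0 (Nat.zero_le _)) (i := i)
    (by rw [Function.update_self]; exact Nat.zero_le _)).1
  rw [Function.update_self, Function.update_idem] at h1 h2
  have e1 : A (srt (Function.update (vl u) i (L + 1))) = g (L + 1) := by rw [hg]
  have e2 : A (srt (Function.update (vl u) i L)) = g L := by rw [hg]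
  have e3 : A (srt (Function.update (vl u) i (0 + 1))) = g 1 := by rw [hg]
  have e4 : A (srt (Function.update (vl u) i 0)) = g 0 := by rw [hg]
  rw [e1, e2] at h1
  rw [e3, e4] at h2
  linarith

/-- Resampling one value. -/
theorem sum_resample (f : (Fin K → Fin L) → ℝ) (i : Fin K) :
    (L : ℝ) * ∑ u, f u = ∑ u : Fin K → Fin L, ∑ x : Fin L, f (Function.update u i x) := by
  rw [← Fintype.sum_prod_type' (f := fun (u : Fin K → Fin L) (x : Fin L) =>
    f (Function.update u i x))]
  have h1 : (L : ℝ) * ∑ u, f u = ∑ q : (Fin K → Fin L) × Fin L, f q.1 := by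
    rw [Fintype.sum_prod_type]
    simp only [Finset.sum_const, Finset.card_univ, Fintype.card_fin, nsmul_eq_mul]
    rw [Finset.mul_sum]
  rw [h1]
  let φ : (Fin K → Fin L) × Fin L ≃ (Fin K → Fin L) × Fin L :=
    { toFun := fun q => (Function.update q.1 i q.2, q.1 i)
      invFun := fun q => (Function.update q.1 i q.2, q.1 i)
      left_inv := fun q => by
        refine Prod.ext ?_ ?_
        · show Function.update (Function.update q.1 i q.2) i (q.1 i) = q.1
          rw [Function.update_idem, Function.update_eq_self]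
        · show Function.update q.1 i q.2 i = q.2
          rw [Function.update_self]
      right_inv := fun q => by
        refine Prod.ext ?_ ?_
        · show Function.update (Function.update q.1 i q.2) i (q.1 i) = q.1
          rw [Function.update_idem, Function.update_eq_self]
        · show Function.update q.1 i q.2 i = q.2
          rw [Function.update_self] }
  exact (Equiv.sum_comp φ (fun q => f q.1)).symm

/-- **The sum of all the second differences.** -/
theorem Cvx.sum_all (hA : Cvx K L c A) :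
    (L : ℝ) * ∑ u : Fin K → Fin L, ∑ i, E2 A u i ≤ K * (L : ℝ) ^ K * c := by
  rw [Finset.sum_comm, Finset.mul_sum]
  have h1 : ∀ i ∈ (univ : Finset (Fin K)), (L : ℝ) * ∑ u : Fin K → Fin L, E2 A u i ≤
      (L : ℝ) ^ K * c := by
    intro i _
    rw [sum_resample (fun u => E2 A u i) i]
    refine (Finset.sum_le_sum fun u _ => hA.sum_one u i).trans (le_of_eq ?_)
    rw [Finset.sum_const, Finset.card_univ, Fintype.card_fun, Fintype.card_fin, Fintype.card_fin,
      nsmul_eq_mul]
    push_cast
    ring
  refine (Finset.sum_le_sum h1).trans (le_of_eq ?_)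
  rw [Finset.sum_const, Finset.card_univ, Fintype.card_fin, nsmul_eq_mul]
  ring

/-! ### The good configurations -/

/-- Injective configurations with a value in each block of length `q`. -/
def Gset (K J q : ℕ) : Finset (Fin K → Fin (J * q)) :=
  univ.filter fun u => Function.Injective u ∧ ∀ j < J, ∃ i, (u i : ℕ) / q = j

theorem card_inj (K L : ℕ) (h : 4 * K ^ 2 ≤ L) (hL : 0 < L) :
    3 / 4 * (L : ℝ) ^ K ≤
      ((univ.filter fun u : Fin K → Fin L => Function.Injective u).card : ℝ) := by
  have h1 : (univ.filter fun u : Fin K → Fin L => Function.Injective u).card =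
      L.descFactorial K := by
    rw [← Fintype.card_subtype, ← Fintype.card_congr (Equiv.subtypeInjectiveEquivEmbedding _ _).symm,
      Fintype.card_embedding_eq, Fintype.card_fin, Fintype.card_fin]
  rw [h1]
  have h2 := Nat.pow_sub_le_descFactorial L K
  have hKL : K ≤ L := by nlinarith
  have h3 : ((L + 1 - K : ℕ) : ℝ) ^ K ≤ (L.descFactorial K : ℝ) := by exact_mod_cast h2
  refine le_trans ?_ h3
  have hL' : (0 : ℝ) < L := by exact_mod_cast hL
  have h4 : ((L + 1 - K : ℕ) : ℝ) = (L : ℝ) + 1 - K := by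
    rw [Nat.cast_sub (by omega)]
    push_cast
    ring
  rw [h4]
  have h5 : (L : ℝ) * (1 + -((K : ℝ) / L)) ≤ (L : ℝ) + 1 - K := by
    have : (L : ℝ) * (1 + -((K : ℝ) / L)) = L - K := by field_simp; ring
    rw [this]
    linarith
  have hK1 : (K : ℝ) ≤ L := by exact_mod_cast hKL
  have h6 : 0 ≤ (L : ℝ) * (1 + -((K : ℝ) / L)) := by
    have : (K : ℝ) / L ≤ 1 := by
      rw [div_le_one hL']
      exact hK1
    exact mul_nonneg hL'.le (by linarith)
  have h7 := pow_le_pow_left₀ h6 h5 K
  refine le_trans ?_ h7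
  rw [mul_pow, mul_comm]
  refine mul_le_mul_of_nonneg_left ?_ (by positivity)
  have h8 : (-2 : ℝ) ≤ -((K : ℝ) / L) := by
    have : (K : ℝ) / L ≤ 1 := by
      rw [div_le_one hL']
      exact hK1
    linarith
  have h9 := one_add_mul_le_pow h8 K
  refine le_trans ?_ h9
  have h10 : (K : ℝ) * ((K : ℝ) / L) ≤ 1 / 4 := by
    rw [mul_div_assoc', div_le_iff₀ hL']
    have : (4 * K ^ 2 : ℝ) ≤ L := by exact_mod_cast h
    nlinarith
  linarith

theorem card_empty (K J q j : ℕ) (hJ : 0 < J) (hq : 0 < q) (hj : j < J) :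
    ((univ.filter fun u : Fin K → Fin (J * q) => ∀ i, (u i : ℕ) / q ≠ j).card : ℝ) ≤
      Real.exp (-((K : ℝ) / J)) * ((J * q : ℕ) : ℝ) ^ K := by
  classical
  obtain ⟨B, hB⟩ : ∃ B : Finset (Fin (J * q)), B = univ.filter fun x : Fin (J * q) => (x : ℕ) / q ≠ j := ⟨_, rfl⟩
  have h1 : (univ.filter fun u : Fin K → Fin (J * q) => ∀ i, (u i : ℕ) / q ≠ j) =
      Fintype.piFinset fun _ => B := by
    ext u
    rw [Fintype.mem_piFinset, hB]
    simp
  rw [h1, Fintype.card_piFinset]
  simp only [Finset.prod_const, Finset.card_univ, Fintype.card_fin]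
  -- the size of the block
  have h2 : q ≤ (univ.filter fun x : Fin (J * q) => (x : ℕ) / q = j).card := by
    have hlt : ∀ t : Fin q, j * q + (t : ℕ) < J * q := by
      intro t
      have h3 : (j + 1) * q ≤ J * q := Nat.mul_le_mul_right q hj
      have h4 := t.2
      calc j * q + (t : ℕ) < j * q + q := by omega
        _ = (j + 1) * q := by ring
        _ ≤ J * q := h3
    have h5 : (univ.image fun t : Fin q => (⟨j * q + (t : ℕ), hlt t⟩ : Fin (J * q))) ⊆
        univ.filter fun x : Fin (J * q) => (x : ℕ) / q = j := by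
      intro x hx
      rw [Finset.mem_image] at hx
      obtain ⟨t, -, rfl⟩ := hx
      rw [Finset.mem_filter]
      refine ⟨mem_univ _, ?_⟩
      show (j * q + (t : ℕ)) / q = j
      rw [mul_comm j q, Nat.mul_add_div hq, Nat.div_eq_of_lt t.2, add_zero]
    have h6 := Finset.card_le_card h5
    rw [Finset.card_image_of_injective _ (by
      intro a b h
      have := congrArg (fun x : Fin (J * q) => (x : ℕ)) h
      simp only at this
      exact Fin.ext (by omega))] at h6
    simpa using h6
  have h3 : B.card + q ≤ J * q := by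
    have h4 := Finset.card_filter_add_card_filter_not (s := (univ : Finset (Fin (J * q))))
      (fun x => (x : ℕ) / q = j)
    rw [Finset.card_univ, Fintype.card_fin] at h4
    have h5 : B.card = (univ.filter fun x : Fin (J * q) => ¬ (x : ℕ) / q = j).card := by rw [hB]
    omega
  have hJ' : (0 : ℝ) < J := by exact_mod_cast hJ
  have hq' : (0 : ℝ) < q := by exact_mod_cast hq
  have h4 : (B.card : ℝ) ≤ (1 - 1 / (J : ℝ)) * ((J * q : ℕ) : ℝ) := by
    have h5 : (B.card : ℝ) + q ≤ ((J * q : ℕ) : ℝ) := by exact_mod_cast h3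
    have h6 : (1 - 1 / (J : ℝ)) * ((J * q : ℕ) : ℝ) = ((J * q : ℕ) : ℝ) - q := by
      push_cast
      field_simp
    rw [h6]
    linarith
  have h5 : (B.card : ℝ) ≤ Real.exp (-(1 / (J : ℝ))) * ((J * q : ℕ) : ℝ) := by
    refine h4.trans (mul_le_mul_of_nonneg_right ?_ (by positivity))
    have := Real.add_one_le_exp (-(1 / (J : ℝ)))
    linarith
  push_cast
  have h6 := pow_le_pow_left₀ (by positivity) h5 K
  refine h6.trans (le_of_eq ?_)
  rw [mul_pow, ← Real.exp_nat_mul]
  push_cast
  congr 2
  ring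

theorem card_good (K J q : ℕ) (hJ : 0 < J) (hq : 0 < q) (h1 : 4 * K ^ 2 ≤ J * q)
    (h2 : 4 * (J : ℝ) * Real.exp (-((K : ℝ) / J)) ≤ 1) :
    1 / 2 * ((J * q : ℕ) : ℝ) ^ K ≤ ((Gset K J q).card : ℝ) := by
  classical
  have hL : 0 < J * q := Nat.mul_pos hJ hq
  have hi := card_inj K (J * q) h1 hL
  have hsub : (univ.filter fun u : Fin K → Fin (J * q) => Function.Injective u) ⊆
      Gset K J q ∪ (range J).biUnion fun j =>
        univ.filter fun u : Fin K → Fin (J * q) => ∀ i, (u i : ℕ) / q ≠ j := by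
    intro u hu
    rw [Finset.mem_filter] at hu
    rw [Finset.mem_union]
    by_cases h : ∀ j < J, ∃ i, (u i : ℕ) / q = j
    · left
      unfold Gset
      rw [Finset.mem_filter]
      exact ⟨mem_univ _, hu.2, h⟩
    · right
      push Not at h
      obtain ⟨j, hj, h⟩ := h
      rw [Finset.mem_biUnion]
      exact ⟨j, Finset.mem_range.2 hj, by rw [Finset.mem_filter]; exact ⟨mem_univ _, h⟩⟩
  have h3 := (Finset.card_le_card hsub).trans (Finset.card_union_le _ _)
  have h4 : ((univ.filter fun u : Fin K → Fin (J * q) => Function.Injective u).card : ℝ) ≤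
      (Gset K J q).card + ((range J).biUnion fun j =>
        univ.filter fun u : Fin K → Fin (J * q) => ∀ i, (u i : ℕ) / q ≠ j).card := by
    exact_mod_cast h3
  have h5 : (((range J).biUnion fun j =>
        univ.filter fun u : Fin K → Fin (J * q) => ∀ i, (u i : ℕ) / q ≠ j).card : ℝ) ≤
      ∑ j ∈ range J, ((univ.filter fun u : Fin K → Fin (J * q) =>
        ∀ i, (u i : ℕ) / q ≠ j).card : ℝ) := by
    exact_mod_cast Finset.card_biUnion_le
  have h6 : ∑ j ∈ range J, ((univ.filter fun u : Fin K → Fin (J * q) =>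
        ∀ i, (u i : ℕ) / q ≠ j).card : ℝ) ≤
      J * (Real.exp (-((K : ℝ) / J)) * ((J * q : ℕ) : ℝ) ^ K) := by
    refine (Finset.sum_le_sum fun j hj =>
      card_empty K J q j hJ hq (Finset.mem_range.1 hj)).trans (le_of_eq ?_)
    rw [Finset.sum_const, Finset.card_range, nsmul_eq_mul]
  have h7 : (J : ℝ) * (Real.exp (-((K : ℝ) / J)) * ((J * q : ℕ) : ℝ) ^ K) ≤
      1 / 4 * ((J * q : ℕ) : ℝ) ^ K := by
    rw [← mul_assoc]
    refine mul_le_mul_of_nonneg_right ?_ (by positivity)
    linarith
  linarith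

/-- **(S4')** The average over the good configurations. -/
theorem Cvx.avg_good {K J q : ℕ} {c : ℝ} {A : (Fin K → ℕ) → ℝ} (hA : Cvx K (J * q) c A)
    (hJ : 0 < J) (hq : 0 < q) (h1 : 4 * K ^ 2 ≤ J * q)
    (h2 : 4 * (J : ℝ) * Real.exp (-((K : ℝ) / J)) ≤ 1) (hc : 0 ≤ c) :
    ((J * q : ℕ) : ℝ) * ∑ u ∈ Gset K J q, ∑ l, D2 A (srt (vl u)) l ≤
      2 * K * c * (Gset K J q).card := by
  have h3 := card_good K J q hJ hq h1 h2
  have h4 := hA.sum_all
  have h5 : ∑ u ∈ Gset K J q, ∑ l, D2 A (srt (vl u)) l ≤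
      ∑ u : Fin K → Fin (J * q), ∑ i, E2 A u i := by
    have h6 : ∑ u ∈ Gset K J q, ∑ l, D2 A (srt (vl u)) l = ∑ u ∈ Gset K J q, ∑ i, E2 A u i := by
      refine Finset.sum_congr rfl fun u hu => ?_
      have hu' := (Finset.mem_filter.1 hu).2.1
      exact ((E2_sum (A := A) hu').2).symm
    rw [h6]
    exact Finset.sum_le_sum_of_subset_of_nonneg (Finset.subset_univ _)
      fun u _ _ => Finset.sum_nonneg fun i _ => hA.E2_nonneg u i
  have h7 := mul_le_mul_of_nonneg_left h5 (Nat.cast_nonneg (α := ℝ) (J * q))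
  refine h7.trans (h4.trans ?_)
  have h8 : (K : ℝ) * ((J * q : ℕ) : ℝ) ^ K * c = 2 * K * c * (1 / 2 * ((J * q : ℕ) : ℝ) ^ K) := by
    ring
  rw [h8]
  exact mul_le_mul_of_nonneg_left h3 (by positivity)

/-- The gaps of a good configuration. -/
theorem gap_good {K J q : ℕ} (hJ : 0 < J) (hq : 0 < q) {u : Fin K → Fin (J * q)}
    (hu : u ∈ Gset K J q) :
    StrictMono (srt (vl u)) ∧ (∀ l, 1 ≤ srt (vl u) l ∧ srt (vl u) l ≤ J * q) ∧
    (∀ l, (∀ k, l ≤ k) → srt (vl u) l ≤ q) ∧
    (∀ l, (∀ k, k ≤ l) → J * q + 1 ≤ srt (vl u) l + q) ∧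
    (∀ l k : Fin K, (k : ℕ) = l + 1 → srt (vl u) k ≤ srt (vl u) l + 2 * q) ∧ 0 < K := by
  have hu2 := (Finset.mem_filter.1 hu).2
  obtain ⟨hinj, hbl⟩ := hu2
  have hs := (E2_sum (A := fun _ => 0) hinj).1
  -- every value of `u` is a value of the sorted tuple
  have hpos : ∀ i, ∃ p, srt (vl u) p = (u i : ℕ) + 1 := fun i => srt_pos (vl u) i
  obtain ⟨i0, hi0⟩ := hbl 0 hJ
  refine ⟨hs, fun l => ⟨vl_ge u _, vl_le u _⟩, ?_, ?_, ?_, ?_⟩
  · intro l hl
    obtain ⟨p, hp⟩ := hpos i0
    refine (srt_mono _ (hl p)).trans ?_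
    rw [hp]
    have := Nat.lt_of_div_eq_zero hq hi0
    exact this
  · intro l hl
    obtain ⟨i1, hi1⟩ := hbl (J - 1) (by omega)
    obtain ⟨p, hp⟩ := hpos i1
    have h1 := srt_mono (vl u) (hl p)
    rw [hp] at h1
    have h2 : (J - 1) * q ≤ (u i1 : ℕ) := by
      rw [← hi1]
      exact Nat.div_mul_le_self _ _
    have h3 : (J - 1) * q + q = J * q := by
      obtain ⟨J', rfl⟩ : ∃ J', J = J' + 1 := ⟨J - 1, by omega⟩
      simp only [Nat.add_sub_cancel]
      ring
    omega
  · intro l k hk
    obtain ⟨y, hy⟩ : ∃ y, y = srt (vl u) l := ⟨_, rfl⟩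
    have hy1 : 1 ≤ y := by rw [hy]; exact vl_ge u _
    have hy2 : y ≤ J * q := by rw [hy]; exact vl_le u _
    obtain ⟨j0, hj0⟩ : ∃ j0, j0 = (y - 1) / q := ⟨_, rfl⟩
    have hj1 : j0 * q ≤ y - 1 := by rw [hj0]; exact Nat.div_mul_le_self _ _
    have hj2 : y - 1 < (j0 + 1) * q := by
      rw [hj0, mul_comm]
      exact Nat.lt_mul_div_succ _ hq
    rw [← hy]
    by_cases hjJ : j0 + 1 < J
    · obtain ⟨i1, hi1⟩ := hbl (j0 + 1) hjJ
      obtain ⟨p, hp⟩ := hpos i1
      have h2 : (j0 + 1) * q ≤ (u i1 : ℕ) := by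
        rw [← hi1]
        exact Nat.div_mul_le_self _ _
      have h3 : (u i1 : ℕ) < (j0 + 2) * q := by
        have h4 := Nat.lt_mul_div_succ (u i1 : ℕ) hq
        rw [hi1] at h4
        calc (u i1 : ℕ) < q * (j0 + 1 + 1) := h4
          _ = (j0 + 2) * q := by ring
      have h4 : l < p := by
        by_contra h
        have h5 := srt_mono (vl u) (not_lt.1 h)
        rw [hp, ← hy] at h5
        omega
      have h5 : k ≤ p := by
        rw [Fin.le_def, hk]
        exact h4
      have h6 := srt_mono (vl u) h5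
      rw [hp] at h6
      have h7 : (j0 + 2) * q = j0 * q + 2 * q := by ring
      omega
    · have h6 : srt (vl u) k ≤ J * q := vl_le u _
      have h7 : J * q ≤ (j0 + 1) * q := Nat.mul_le_mul_right q (by omega)
      have h8 : (j0 + 1) * q = j0 * q + q := by ring
      omega
  · exact Fin.pos i0

end Vale.Agent.P146.Gp.Avg
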