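import Mathlib
import Vale.Agent.P157.ParDefs
import Vale.Agent.P146.H327.Avg

set_option linter.all false

/-!
(S4'), part 2: the version with slopes `D l v`.
-/

open Finset

namespace Vale.Agent.P146.Gp.Avg

variable {K L : ℕ}

/-- The hypotheses on the slopes: `D l v` is the slope in the exponent `l` at the weakly
increasing tuple `v`. -/
structure Slp (K L : ℕ) (B : ℝ) (D : Fin K → (Fin K → ℕ) → ℝ) : Prop where
  mono : ∀ v : Fin K → ℕ, Monotone v → (∀ i, v i ≤ L + 1) → ∀ b, v b ≤ L →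
    Monotone (Function.update v b (v b + 1)) → D b v ≤ D b (Function.update v b (v b + 1))
  face : ∀ v : Fin K → ℕ, Monotone v → (∀ i, v i ≤ L + 1) → ∀ a b : Fin K, (b : ℕ) = a + 1 →
    v a = v b → D a v ≤ D b v
  bd : ∀ v : Fin K → ℕ, Monotone v → (∀ i, v i ≤ L + 1) → ∀ b, 0 ≤ D b v ∧ D b v ≤ B

variable {B : ℝ} {D : Fin K → (Fin K → ℕ) → ℝ}

/-- The increment of the slope. -/
def dD (D : Fin K → (Fin K → ℕ) → ℝ) (v : Fin K → ℕ) (l : Fin K) : ℝ :=
  D l (Function.update v l (v l + 1)) - D l v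

/-- Ties: the face inequality for any two tied positions. -/
theorem Slp.face' (hD : Slp K L B D) {v : Fin K → ℕ} (hv : Monotone v) (hb : ∀ i, v i ≤ L + 1)
    {a b : Fin K} (hab : a ≤ b) (h : v a = v b) : D a v ≤ D b v := by
  have key : ∀ n : ℕ, ∀ b : Fin K, (b : ℕ) = a + n → v a = v b → D a v ≤ D b v := by
    intro n
    induction n with
    | zero =>
      intro b hb' _
      have : b = a := Fin.ext (by omega)
      rw [this]
    | succ n ih =>
      intro b hb' hvb
      have hlt : (a : ℕ) + n < K := by have := b.2; omega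
      obtain ⟨b', hb1⟩ : ∃ b' : Fin K, b' = ⟨(a : ℕ) + n, hlt⟩ := ⟨_, rfl⟩
      have hb2 : (b' : ℕ) = a + n := by rw [hb1]
      have h1 : a ≤ b' := by rw [Fin.le_def]; omega
      have h2 : b' ≤ b := by rw [Fin.le_def]; omega
      have h3 : v a = v b' := le_antisymm (hv h1) (by rw [hvb]; exact hv h2)
      exact (ih b' hb2 h3).trans (hD.face v hv hb b' b (by omega) (by rw [← h3, hvb]))
  exact key ((b : ℕ) - a) b (by have := Fin.le_def.1 hab; omega) h

/-- The highest position of the value `w i`. -/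
noncomputable def tp (w : Fin K → ℕ) (i : Fin K) : Fin K :=
  (exists_top (srt_mono w) (srt_pos w i).choose).choose

theorem tp_val (w : Fin K → ℕ) (i : Fin K) : srt w (tp w i) = w i := by
  have h := (exists_top (srt_mono w) (srt_pos w i).choose).choose_spec
  have h2 := (srt_pos w i).choose_spec
  rw [tp, h.2.1, h2]

theorem tp_top (w : Fin K → ℕ) (i : Fin K) : ∀ j, tp w i < j → srt w (tp w i) < srt w j :=
  (exists_top (srt_mono w) (srt_pos w i).choose).choose_spec.2.2

theorem tp_ge (w : Fin K → ℕ) (i : Fin K) {p : Fin K} (hp : srt w p = w i) : p ≤ tp w i := by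
  by_contra h
  have h1 := tp_top w i p (not_le.1 h)
  rw [tp_val, hp] at h1
  exact lt_irrefl _ h1

/-- The slope of the value `w i`. -/
noncomputable def Gv (D : Fin K → (Fin K → ℕ) → ℝ) (w : Fin K → ℕ) (i : Fin K) : ℝ :=
  D (tp w i) (srt w)

/-- The increment of the slope of the value `w i`. -/
noncomputable def Ev (D : Fin K → (Fin K → ℕ) → ℝ) (w : Fin K → ℕ) (i : Fin K) : ℝ :=
  dD D (srt w) (tp w i)

theorem Slp.Ev_le (hD : Slp K L B D) {w : Fin K → ℕ} (hw : ∀ i, w i ≤ L + 1) {i : Fin K}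
    (hi : w i ≤ L) :
    0 ≤ Ev D w i ∧ Ev D w i ≤ Gv D (Function.update w i (w i + 1)) i - Gv D w i := by
  have hm := mono_up (srt_mono w) (tp_top w i)
  have hup : srt (Function.update w i (w i + 1)) =
      Function.update (srt w) (tp w i) (srt w (tp w i) + 1) := by
    have h1 := srt_update (w := w) (i := i) (b := tp w i) (y := srt w (tp w i) + 1) (tp_val w i) hm
    rw [tp_val] at h1 ⊢
    exact h1
  have h1 := hD.mono (srt w) (srt_mono w) (srt_le hw) (tp w i) (by rw [tp_val]; exact hi) hm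
  refine ⟨by unfold Ev dD; linarith, ?_⟩
  unfold Ev dD Gv
  have hw' : ∀ j, Function.update w i (w i + 1) j ≤ L + 1 := by
    intro j
    by_cases hj : j = i
    · subst hj
      rw [Function.update_self]
      omega
    · rw [Function.update_of_ne hj]
      exact hw j
  have hv' : srt (Function.update w i (w i + 1)) (tp w i) =
      Function.update w i (w i + 1) i := by
    rw [hup, Function.update_self, Function.update_self, tp_val]
  have h2 := tp_ge (Function.update w i (w i + 1)) i hv'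
  have h3 := hD.face' (srt_mono _) (srt_le hw') h2 (by rw [hv', tp_val])
  rw [hup] at h3 ⊢
  linarith

theorem tele1 (g : ℕ → ℝ) (L : ℕ) :
    ∑ x ∈ range L, (g (x + 1 + 1) - g (x + 1)) = g (L + 1) - g 1 := by
  induction L with
  | zero => simp
  | succ L ih =>
    rw [Finset.sum_range_succ, ih]
    ring

/-- The sum over one value. -/
theorem Slp.sum_one (hD : Slp K L B D) (u : Fin K → Fin L) (i : Fin K) :
    ∑ x : Fin L, Ev D (vl (Function.update u i x)) i ≤ B := by
  obtain ⟨g, hg⟩ : ∃ g : ℕ → ℝ, g = fun x => Gv D (Function.update (vl u) i x) i := ⟨_, rfl⟩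
  have hval : ∀ x : Fin L, vl (Function.update u i x) = Function.update (vl u) i ((x : ℕ) + 1) := by
    intro x
    funext j
    unfold vl
    by_cases hj : j = i
    · subst hj
      rw [Function.update_self, Function.update_self]
    · rw [Function.update_of_ne hj, Function.update_of_ne hj]
  have hb : ∀ y ≤ L + 1, ∀ j, Function.update (vl u) i y j ≤ L + 1 := by
    intro y hy j
    by_cases hj : j = i
    · subst hj
      rw [Function.update_self]
      exact hy
    · rw [Function.update_of_ne hj]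
      exact (vl_le u j).trans (Nat.le_succ _)
  have hE : ∀ x ∈ (univ : Finset (Fin L)), Ev D (vl (Function.update u i x)) i ≤
      (fun x : ℕ => g (x + 1 + 1) - g (x + 1)) x := by
    intro x _
    rw [hval x]
    have h1 := (hD.Ev_le (w := Function.update (vl u) i ((x : ℕ) + 1))
      (hb _ (by have := x.2; omega)) (i := i)
      (by rw [Function.update_self]; exact x.2)).2
    rw [Function.update_self, Function.update_idem] at h1
    rw [hg]
    exact h1
  refine (Finset.sum_le_sum hE).trans ?_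
  rw [Fin.sum_univ_eq_sum_range (fun x : ℕ => g (x + 1 + 1) - g (x + 1)) L, tele1]
  have h1 := (hD.bd (srt (Function.update (vl u) i (L + 1))) (srt_mono _)
    (srt_le (hb _ le_rfl)) (tp (Function.update (vl u) i (L + 1)) i)).2
  have h2 := (hD.bd (srt (Function.update (vl u) i 1)) (srt_mono _)
    (srt_le (hb _ (by omega))) (tp (Function.update (vl u) i 1) i)).1
  have e1 : g (L + 1) = D (tp (Function.update (vl u) i (L + 1)) i)
      (srt (Function.update (vl u) i (L + 1))) := by rw [hg]; rfl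
  have e2 : g 1 = D (tp (Function.update (vl u) i 1) i) (srt (Function.update (vl u) i 1)) := by
    rw [hg]; rfl
  rw [← e1] at h1
  rw [← e2] at h2
  linarith

theorem Slp.sum_all (hD : Slp K L B D) :
    (L : ℝ) * ∑ u : Fin K → Fin L, ∑ i, Ev D (vl u) i ≤ K * (L : ℝ) ^ K * B := by
  rw [Finset.sum_comm, Finset.mul_sum]
  have h1 : ∀ i ∈ (univ : Finset (Fin K)), (L : ℝ) * ∑ u : Fin K → Fin L, Ev D (vl u) i ≤
      (L : ℝ) ^ K * B := by
    intro i _
    rw [sum_resample (fun u => Ev D (vl u) i) i]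
    refine (Finset.sum_le_sum fun u _ => hD.sum_one u i).trans (le_of_eq ?_)
    rw [Finset.sum_const, Finset.card_univ, Fintype.card_fun, Fintype.card_fin, Fintype.card_fin,
      nsmul_eq_mul]
    push_cast
    ring
  refine (Finset.sum_le_sum h1).trans (le_of_eq ?_)
  rw [Finset.sum_const, Finset.card_univ, Fintype.card_fin, nsmul_eq_mul]
  ring

theorem tp_inj {w : Fin K → ℕ} (hs : StrictMono (srt w)) (l : Fin K) :
    tp w (Tuple.sort w l) = l := by
  have h1 : srt w l = w (Tuple.sort w l) := rfl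
  have h2 := tp_val w (Tuple.sort w l)
  rw [← h1] at h2
  exact hs.injective h2

theorem Ev_sum {u : Fin K → Fin L} (hu : Function.Injective u) :
    ∑ i, Ev D (vl u) i = ∑ l, dD D (srt (vl u)) l := by
  have hs := (E2_sum (A := fun _ => 0) hu).1
  rw [← Equiv.sum_comp (Tuple.sort (vl u)) (fun i => Ev D (vl u) i)]
  refine Finset.sum_congr rfl fun l _ => ?_
  unfold Ev
  rw [tp_inj hs]

/-- **(S4')** The average over the good configurations of the increments of the slopes. -/
theorem Slp.avg_good {K J q : ℕ} {B : ℝ} {D : Fin K → (Fin K → ℕ) → ℝ}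
    (hD : Slp K (J * q) B D) (hJ : 0 < J) (hq : 0 < q) (h1 : 4 * K ^ 2 ≤ J * q)
    (h2 : 4 * (J : ℝ) * Real.exp (-((K : ℝ) / J)) ≤ 1) (hB : 0 ≤ B) :
    ((J * q : ℕ) : ℝ) * ∑ u ∈ Gset K J q, ∑ l, dD D (srt (vl u)) l ≤
      2 * K * B * (Gset K J q).card := by
  have h3 := card_good K J q hJ hq h1 h2
  have h4 := hD.sum_all
  have h5 : ∑ u ∈ Gset K J q, ∑ l, dD D (srt (vl u)) l ≤
      ∑ u : Fin K → Fin (J * q), ∑ i, Ev D (vl u) i := by
    have h6 : ∑ u ∈ Gset K J q, ∑ l, dD D (srt (vl u)) l =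
        ∑ u ∈ Gset K J q, ∑ i, Ev D (vl u) i := by
      refine Finset.sum_congr rfl fun u hu => ?_
      have hu' := (Finset.mem_filter.1 hu).2.1
      exact (Ev_sum (D := D) hu').symm
    rw [h6]
    exact Finset.sum_le_sum_of_subset_of_nonneg (Finset.subset_univ _)
      fun u _ _ => Finset.sum_nonneg fun i _ =>
        (hD.Ev_le (fun j => (vl_le u j).trans (Nat.le_succ _)) (vl_le u i)).1
  have h7 := mul_le_mul_of_nonneg_left h5 (Nat.cast_nonneg (α := ℝ) (J * q))
  refine h7.trans (h4.trans ?_)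
  have h8 : (K : ℝ) * ((J * q : ℕ) : ℝ) ^ K * B = 2 * K * B * (1 / 2 * ((J * q : ℕ) : ℝ) ^ K) := by
    ring
  rw [h8]
  exact mul_le_mul_of_nonneg_left h3 (by positivity)

/-- The number of blocks. -/
theorem exists_J {K : ℕ} (hK : 2 ≤ K) : ∃ J : ℕ, 0 < J ∧ J ≤ K ∧
    4 * (J : ℝ) * Real.exp (-((K : ℝ) / J)) ≤ 1 ∧
    1 / (J : ℝ) ≤ 4 * Real.log (4 * K) / K := by
  have hK' : (2 : ℝ) ≤ K := by exact_mod_cast hK
  have hK0 : (0 : ℝ) < K := by linarith
  have hlog : 1 ≤ Real.log (4 * K) := by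
    rw [Real.le_log_iff_exp_le (by positivity)]
    have := Real.exp_one_lt_d9
    linarith
  have hlog0 : 0 < Real.log (4 * K) := by linarith
  have he2 : 4 * Real.exp (-(K : ℝ)) ≤ 1 := by
    have h1 : Real.exp (-(K : ℝ)) ≤ Real.exp (-2) := Real.exp_le_exp.2 (by linarith)
    have h2 : Real.exp (-2) * Real.exp 2 = 1 := by
      rw [← Real.exp_add]
      norm_num
    have h3 : (4 : ℝ) ≤ Real.exp 2 := by
      have h4 : Real.exp 2 = Real.exp 1 * Real.exp 1 := by
        rw [← Real.exp_add]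
        norm_num
      have h5 := Real.exp_one_gt_d9
      rw [h4]
      nlinarith
    have h4 := Real.exp_pos (-2)
    nlinarith
  rcases lt_or_ge ((K : ℝ) / (2 * Real.log (4 * K))) 1 with h | h
  · refine ⟨1, one_pos, by omega, by simpa using he2, ?_⟩
    rw [div_lt_one (by positivity)] at h
    rw [Nat.cast_one, div_one, le_div_iff₀ hK0]
    linarith
  · obtain ⟨J, hJ⟩ : ∃ J : ℕ, J = ⌊(K : ℝ) / (2 * Real.log (4 * K))⌋₊ := ⟨_, rfl⟩
    have hJ1 : 1 ≤ J := by
      rw [hJ]
      exact Nat.le_floor (by simpa using h)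
    have hJle : (J : ℝ) ≤ (K : ℝ) / (2 * Real.log (4 * K)) := by
      rw [hJ]
      exact Nat.floor_le (by positivity)
    have hJgt : (K : ℝ) / (2 * Real.log (4 * K)) < J + 1 := by
      rw [hJ]
      exact Nat.lt_floor_add_one _
    have hJ0 : (0 : ℝ) < J := by exact_mod_cast hJ1
    have hJ1' : (1 : ℝ) ≤ J := by exact_mod_cast hJ1
    have hJK : (J : ℝ) ≤ K := by
      refine hJle.trans ?_
      rw [div_le_iff₀ (by positivity)]
      nlinarith
    refine ⟨J, hJ1, by exact_mod_cast hJK, ?_, ?_⟩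
    · have h1 : 2 * Real.log (4 * K) ≤ (K : ℝ) / J := by
        rw [le_div_iff₀ hJ0]
        rw [le_div_iff₀ (by positivity)] at hJle
        linarith
      have h2 : Real.exp (-((K : ℝ) / J)) ≤ Real.exp (-(2 * Real.log (4 * K))) :=
        Real.exp_le_exp.2 (by linarith)
      have h3 : Real.exp (-(2 * Real.log (4 * K))) = 1 / (4 * K) ^ 2 := by
        rw [Real.exp_neg, mul_comm, Real.exp_mul, Real.exp_log (by positivity)]
        norm_num
      rw [h3] at h2
      calc 4 * (J : ℝ) * Real.exp (-((K : ℝ) / J)) ≤ 4 * K * (1 / (4 * K) ^ 2) :=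
            mul_le_mul (by linarith) h2 (Real.exp_pos _).le (by positivity)
        _ = 1 / (4 * K) := by field_simp
        _ ≤ 1 := by
            rw [div_le_one (by positivity)]
            linarith
    · rw [div_le_div_iff₀ hJ0 hK0, one_mul]
      have h1 : (K : ℝ) / (2 * Real.log (4 * K)) ≤ 2 * J := by linarith
      rw [div_le_iff₀ (by positivity)] at h1
      linarith

/-! ### The exponents -/

/-- The exponents: `m 0 = 0`, `m 1 = r`, `m (i + 2) = r + h w_i`, the last one is `1`. -/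
noncomputable def mw (r : ℝ) (k L : ℕ) (w : Fin k → ℕ) : ℕ → ℝ := fun l =>
  if l = 0 then 0 else if l = 1 then r else
    if hl : l - 2 < k then r + (1 - r) / ((L : ℝ) + 1) * w ⟨l - 2, hl⟩ else 1

variable {r : ℝ} {k : ℕ} {w : Fin k → ℕ}

theorem mw_zero : mw r k L w 0 = 0 := by simp [mw]

theorem mw_one : mw r k L w 1 = r := by simp [mw]

theorem mw_mid (i : Fin k) : mw r k L w (i + 2) = r + (1 - r) / ((L : ℝ) + 1) * w i := by
  unfold mw
  rw [if_neg (by omega), if_neg (by omega), dif_pos (show (i : ℕ) + 2 - 2 < k by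
    have := i.2; omega)]
  congr 3

theorem mw_top {l : ℕ} (hl : k + 2 ≤ l) : mw r k L w l = 1 := by
  unfold mw
  rw [if_neg (by omega), if_neg (by omega), dif_neg (by omega)]

/-- The increments of the exponents in terms of the extended tuple. -/
theorem mw_mono (hr : 0 ≤ r) (hr1 : r ≤ 1) (hw : Monotone w) (hL : ∀ i, w i ≤ L + 1) {l : ℕ} :
    mw r k L w l ≤ mw r k L w (l + 1) := by
  have hL0 : (0 : ℝ) < (L : ℝ) + 1 := by positivity
  have hh : 0 ≤ (1 - r) / ((L : ℝ) + 1) := div_nonneg (by linarith) hL0.le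
  have htop : ∀ i, r + (1 - r) / ((L : ℝ) + 1) * w i ≤ 1 := by
    intro i
    have h1 : ((w i : ℕ) : ℝ) ≤ (L : ℝ) + 1 := by exact_mod_cast hL i
    have h2 := mul_le_mul_of_nonneg_left h1 hh
    have h3 : (1 - r) / ((L : ℝ) + 1) * ((L : ℝ) + 1) = 1 - r := by field_simp
    linarith
  rcases Nat.eq_zero_or_pos l with h0 | h0
  · subst h0
    rw [mw_zero, zero_add, mw_one]
    exact hr
  rcases Nat.eq_or_lt_of_le h0 with h1 | h1
  · have e : l = 1 := by omega
    subst e
    rw [mw_one]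
    by_cases hk : 0 < k
    · have := mw_mid (r := r) (L := L) (w := w) (⟨0, hk⟩ : Fin k)
      simp only [Fin.val_mk, zero_add] at this
      show r ≤ mw r k L w 2
      rw [this]
      have := mul_nonneg hh (Nat.cast_nonneg (α := ℝ) (w ⟨0, hk⟩))
      linarith
    · rw [mw_top (by omega)]
      exact hr1
  obtain ⟨i, rfl⟩ : ∃ i, l = i + 2 := ⟨l - 2, by omega⟩
  by_cases hi : i + 1 < k
  · have e1 := mw_mid (r := r) (L := L) (w := w) (⟨i, by omega⟩ : Fin k)
    have e2 := mw_mid (r := r) (L := L) (w := w) (⟨i + 1, hi⟩ : Fin k)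
    simp only [Fin.val_mk] at e1 e2
    rw [show i + 2 + 1 = i + 1 + 2 by ring, e1, e2]
    have h3 : w ⟨i, by omega⟩ ≤ w ⟨i + 1, hi⟩ := hw (by rw [Fin.le_def]; simp)
    have h4 : ((w ⟨i, by omega⟩ : ℕ) : ℝ) ≤ w ⟨i + 1, hi⟩ := by exact_mod_cast h3
    have := mul_le_mul_of_nonneg_left h4 hh
    linarith
  · rw [mw_top (l := i + 2 + 1) (by omega)]
    by_cases hi2 : i < k
    · have e1 := mw_mid (r := r) (L := L) (w := w) (⟨i, hi2⟩ : Fin k)
      simp only [Fin.val_mk] at e1
      rw [e1]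
      exact htop _
    · rw [mw_top (by omega)]

/-- Strictly increasing tuples give exponents. -/
theorem mw_exp (hr : 0 < r) (hr1 : r < 1) (hw : StrictMono w) (hL : ∀ i, 1 ≤ w i ∧ w i ≤ L) :
    Vale.Agent.P157.Par.Exponents (k + 1) (mw r k L w) := by
  have hL0 : (0 : ℝ) < (L : ℝ) + 1 := by positivity
  have hh : 0 < (1 - r) / ((L : ℝ) + 1) := div_pos (by linarith) hL0
  have htop : ∀ i, r + (1 - r) / ((L : ℝ) + 1) * w i < 1 := by
    intro i
    have h1 : ((w i : ℕ) : ℝ) < (L : ℝ) + 1 := by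
      have : w i < L + 1 := Nat.lt_succ_of_le (hL i).2
      exact_mod_cast this
    have h2 := mul_lt_mul_of_pos_left h1 hh
    have h3 : (1 - r) / ((L : ℝ) + 1) * ((L : ℝ) + 1) = 1 - r := by field_simp
    linarith
  refine ⟨mw_zero, mw_top (by omega), fun l hl => ?_⟩
  rcases Nat.eq_zero_or_pos l with h0 | h0
  · subst h0
    rw [mw_zero, zero_add, mw_one]
    exact hr
  rcases Nat.eq_or_lt_of_le h0 with h1 | h1
  · have e : l = 1 := by omega
    subst e
    rw [mw_one]
    by_cases hk : 0 < k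
    · have := mw_mid (r := r) (L := L) (w := w) (⟨0, hk⟩ : Fin k)
      simp only [Fin.val_mk, zero_add] at this
      show r < mw r k L w 2
      rw [this]
      have h3 : (0 : ℝ) < w ⟨0, hk⟩ := by exact_mod_cast (hL ⟨0, hk⟩).1
      have := mul_pos hh h3
      linarith
    · rw [mw_top (by omega)]
      exact hr1
  obtain ⟨i, rfl⟩ : ∃ i, l = i + 2 := ⟨l - 2, by omega⟩
  have hi2 : i < k := by omega
  have e1 := mw_mid (r := r) (L := L) (w := w) (⟨i, hi2⟩ : Fin k)
  simp only [Fin.val_mk] at e1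
  by_cases hi : i + 1 < k
  · have e2 := mw_mid (r := r) (L := L) (w := w) (⟨i + 1, hi⟩ : Fin k)
    simp only [Fin.val_mk] at e2
    rw [show i + 2 + 1 = i + 1 + 2 by ring, e1, e2]
    have h3 : w ⟨i, hi2⟩ < w ⟨i + 1, hi⟩ := hw (by rw [Fin.lt_def]; simp)
    have h4 : ((w ⟨i, hi2⟩ : ℕ) : ℝ) < w ⟨i + 1, hi⟩ := by exact_mod_cast h3
    have := mul_lt_mul_of_pos_left h4 hh
    linarith
  · rw [mw_top (l := i + 2 + 1) (by omega), e1]
    exact htop _

/-- Moving one exponent. -/
theorem mw_update (i : Fin k) (y : ℕ) :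
    mw r k L (Function.update w i y) =
      Function.update (mw r k L w) (i + 2) (r + (1 - r) / ((L : ℝ) + 1) * y) := by
  funext l
  by_cases hl : l = i + 2
  · subst hl
    rw [Function.update_self, mw_mid, Function.update_self]
  · rw [Function.update_of_ne hl]
    unfold mw
    split_ifs with h0 h1 h2
    · rfl
    · rfl
    · rw [Function.update_of_ne]
      intro h
      have := congrArg Fin.val h
      simp only at this
      omega
    · rfl

/-- The spacings of a good configuration. -/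
theorem mw_gap {J q : ℕ} (hr : 0 ≤ r) (hr1 : r ≤ 1) (hJ : 0 < J) (hq : 0 < q)
    {u : Fin k → Fin (J * q)} (hu : u ∈ Gset k J q) {l : ℕ} (hl1 : 1 ≤ l) :
    mw r k (J * q) (srt (vl u)) (l + 1) - mw r k (J * q) (srt (vl u)) l ≤ 2 / J := by
  obtain ⟨hs, hb, hfirst, hlast, hgap, hk⟩ := gap_good hJ hq hu
  obtain ⟨w, hw⟩ : ∃ w, w = srt (vl u) := ⟨_, rfl⟩
  rw [← hw] at hs hb hfirst hlast hgap ⊢
  have hJ0 : (0 : ℝ) < J := by exact_mod_cast hJ
  have hq0 : (0 : ℝ) < q := by exact_mod_cast hq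
  have hL0 : (0 : ℝ) < ((J * q : ℕ) : ℝ) + 1 := by positivity
  obtain ⟨h, hh⟩ : ∃ h, h = (1 - r) / (((J * q : ℕ) : ℝ) + 1) := ⟨_, rfl⟩
  have hh0 : 0 ≤ h := by rw [hh]; exact div_nonneg (by linarith) hL0.le
  have hhL : h * (((J * q : ℕ) : ℝ) + 1) = 1 - r := by rw [hh]; field_simp
  have hqh : h * (2 * q) ≤ 2 / J := by
    rw [le_div_iff₀ hJ0]
    have h1 : h * (((J * q : ℕ) : ℝ) + 1) ≤ 1 := by rw [hhL]; linarith
    push_cast at h1
    nlinarith
  have hqh1 : h * q ≤ 2 / J := by
    have := mul_nonneg hh0 hq0.le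
    linarith
  rcases Nat.eq_or_lt_of_le hl1 with h1 | h1
  · subst h1
    have e2 := mw_mid (r := r) (L := J * q) (w := w) (⟨0, hk⟩ : Fin k)
    simp only [Fin.val_mk, zero_add] at e2
    rw [mw_one]
    show mw r k (J * q) w 2 - r ≤ 2 / J
    rw [e2, ← hh]
    have h2 := hfirst ⟨0, hk⟩ (fun j => by rw [Fin.le_def]; simp)
    have h3 : ((w ⟨0, hk⟩ : ℕ) : ℝ) ≤ q := by exact_mod_cast h2
    have := mul_le_mul_of_nonneg_left h3 hh0
    linarith
  obtain ⟨i, rfl⟩ : ∃ i, l = i + 2 := ⟨l - 2, by omega⟩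
  by_cases hi2 : i < k
  · have e1 := mw_mid (r := r) (L := J * q) (w := w) (⟨i, hi2⟩ : Fin k)
    simp only [Fin.val_mk] at e1
    by_cases hi : i + 1 < k
    · have e2 := mw_mid (r := r) (L := J * q) (w := w) (⟨i + 1, hi⟩ : Fin k)
      simp only [Fin.val_mk] at e2
      rw [show i + 2 + 1 = i + 1 + 2 by ring, e1, e2, ← hh]
      have h3 := hgap ⟨i, hi2⟩ ⟨i + 1, hi⟩ rfl
      have h4 : ((w ⟨i + 1, hi⟩ : ℕ) : ℝ) ≤ w ⟨i, hi2⟩ + 2 * q := by exact_mod_cast h3
      have := mul_le_mul_of_nonneg_left h4 hh0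
      linarith
    · rw [mw_top (l := i + 2 + 1) (by omega), e1, ← hh]
      have h3 := hlast ⟨i, hi2⟩ (fun j => by rw [Fin.le_def]; have := j.2; simp; omega)
      have h4 : ((J * q : ℕ) : ℝ) + 1 ≤ w ⟨i, hi2⟩ + q := by exact_mod_cast h3
      have := mul_le_mul_of_nonneg_left h4 hh0
      linarith
  · rw [mw_top (l := i + 2 + 1) (by omega), mw_top (l := i + 2) (by omega), sub_self]
    positivity

end Vale.Agent.P146.Gp.Avg
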