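import Vale.Agent.P146.H785.Sum2
import Vale.Agent.P146.H327.Avg2

set_option linter.all false

/-!
Row (AX): the exponent average (`Slp.avg_good`) wired to the SK systems: the average over the good
exponents of the sum over the levels of the weighted variances of the overlaps.
-/

open Finset

namespace Vale.Agent.P146.Gp.Avg

open Vale.Agent.P157.Lv Vale.Agent.P157.Lv.Sy
open Vale.Agent.P146.Ub.Ld Vale.Agent.P146.H784 Vale.Agent.P146.H785
open Vale.Agent.P157.Par (Path Exponents incr)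

variable {n k N : ℕ} {β r lam : ℝ} {s : ℕ → ℝ}

/-- The telescoping sum of the increments of the mean overlaps. -/
theorem sum_dRl (hN : N ≤ n) (h0 : 0 < N) {m : ℕ → ℝ} (hm : Exponents (k + 1) m)
    (hs : ∀ l ≤ k + 1, 0 ≤ s l) :
    ∑ i : Fin k, 2 * ((SN n (k + 1) 1 m β N s).Rl (Vale.Agent.P146.Ub.ph hN) (i + 2) -
      (SN n (k + 1) 1 m β N s).Rl (Vale.Agent.P146.Ub.ph hN) (i + 1)) ≤ 2 := by
  have F := SN_fld (d := 1) (β := β) (show 1 ≤ k + 1 by omega) hN h0 hm hs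
  have h1 := sum_dR_le F (d := 1) (show 1 ≤ (SN n (k + 1) 1 m β N s).K from Nat.le_add_left 1 k)
  have e : (SN n (k + 1) 1 m β N s).K = k + 1 := rfl
  rw [e, Finset.sum_Ico_eq_sum_range] at h1
  rw [← Finset.mul_sum]
  have h2 : ∑ i : Fin k, ((SN n (k + 1) 1 m β N s).Rl (Vale.Agent.P146.Ub.ph hN) (i + 2) -
      (SN n (k + 1) 1 m β N s).Rl (Vale.Agent.P146.Ub.ph hN) (i + 1)) =
      ∑ i ∈ Finset.range k, ((SN n (k + 1) 1 m β N s).Rl (Vale.Agent.P146.Ub.ph hN) (i + 2) -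
      (SN n (k + 1) 1 m β N s).Rl (Vale.Agent.P146.Ub.ph hN) (i + 1)) :=
    Fin.sum_univ_eq_sum_range (fun i => (SN n (k + 1) 1 m β N s).Rl (Vale.Agent.P146.Ub.ph hN) (i + 2) -
      (SN n (k + 1) 1 m β N s).Rl (Vale.Agent.P146.Ub.ph hN) (i + 1)) k
  rw [h2]
  have h3 : ∑ i ∈ Finset.range k, ((SN n (k + 1) 1 m β N s).Rl (Vale.Agent.P146.Ub.ph hN) (i + 2) -
      (SN n (k + 1) 1 m β N s).Rl (Vale.Agent.P146.Ub.ph hN) (i + 1)) =
      ∑ i ∈ Finset.range (k + 1 - 1), ((SN n (k + 1) 1 m β N s).Rl (Vale.Agent.P146.Ub.ph hN) (1 + i + 1) -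
      (SN n (k + 1) 1 m β N s).Rl (Vale.Agent.P146.Ub.ph hN) (1 + i)) := by
    rw [Nat.add_sub_cancel]
    refine Finset.sum_congr rfl fun i _ => ?_
    rw [show 1 + i + 1 = i + 2 by ring, show 1 + i = i + 1 by ring]
  rw [h3]
  linarith

/-- The sum over the levels of the weighted variances of the overlaps. -/
noncomputable def VT (n k : ℕ) (m : ℕ → ℝ) (β : ℝ) {N : ℕ} (hN : N ≤ n) (s : ℕ → ℝ) : ℝ :=
  ∑ l ∈ Finset.Ico 1 (k + 1), (m (l + 1) - m l) *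
    (SN n (k + 1) 1 m β N s).pairEx l (fun x x' => (Rov (Vale.Agent.P146.Ub.ph hN) x x' -
      (SN n (k + 1) 1 m β N s).Rl (Vale.Agent.P146.Ub.ph hN) l) ^ 2)

/-- One configuration of the exponents. -/
theorem VT_le (hN : N ≤ n) (h0 : 0 < N) {m : ℕ → ℝ} (hm : Exponents (k + 1) m)
    (hs : ∀ l ≤ k + 1, 0 ≤ s l) {P c1 : ℝ} (hr : 0 < r) (hlam : 0 < lam) (hmr : r ≤ m 1)
    (hP : ∀ l ∈ Finset.Ico 1 (k + 1), m (l + 1) - m l ≤ P)
    (hs' : ∀ l ∈ Finset.Ico 1 (k + 1), s (l + 1) = √lam) (hP0 : 0 ≤ P) (hc1 : 0 ≤ c1)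
    {dd : Fin k → ℝ} (hX : ∀ i : Fin k, vr (SN n (k + 1) 1 m β N s) (fun z _ =>
        rho (SN n (k + 1) 1 m β N s) (Vale.Agent.P146.Ub.ph hN) (i + 1) z) ≤ c1 * dd i +
      2 * ((SN n (k + 1) 1 m β N s).Rl (Vale.Agent.P146.Ub.ph hN) (i + 2) -
        (SN n (k + 1) 1 m β N s).Rl (Vale.Agent.P146.Ub.ph hN) (i + 1))) :
    VT n k m β hN s ≤ P * (6 + 2 / (N * lam * r ^ 2)) + 2 * √(5 / 2 * P / (N * lam * r)) +
      P * (c1 * ∑ i, dd i + 2) := by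
  have h1 := rowT_sum (β := β) (d := 1) le_rfl (show 1 ≤ k + 1 by omega) hN h0 hm hs hr hlam hmr hP
    hs' hP0
  refine h1.trans ?_
  refine add_le_add le_rfl ?_
  obtain ⟨v, hv⟩ : ∃ v : ℕ → ℝ, v = fun l => vr (SN n (k + 1) 1 m β N s) (fun z _ =>
      rho (SN n (k + 1) 1 m β N s) (Vale.Agent.P146.Ub.ph hN) l z) := ⟨_, rfl⟩
  have hv0 : ∀ l ≤ k + 1, 0 ≤ v l := by
    intro l hl
    have F := SN_fld (d := 1) (β := β) (show 1 ≤ k + 1 by omega) hN h0 hm hs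
    rw [hv]
    exact vr_nonneg F.reg.toReg (Nh.fst (eg_rho F.reg.toReg hl))
  have h2 : ∑ l ∈ Finset.Ico 1 (k + 1), (m (l + 1) - m l) * v l ≤
      ∑ l ∈ Finset.Ico 1 (k + 1), P * v l := by
    refine Finset.sum_le_sum fun l hl => ?_
    exact mul_le_mul_of_nonneg_right (hP l hl) (hv0 l (by have := Finset.mem_Ico.1 hl; omega))
  have e3 : ∑ l ∈ Finset.Ico 1 (k + 1), P * v l = P * ∑ i : Fin k, v (i + 1) := by
    rw [← Finset.mul_sum, Finset.sum_Ico_eq_sum_range, Nat.add_sub_cancel,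
      ← Fin.sum_univ_eq_sum_range (fun i => v (1 + i)) k]
    congr 1
    exact Finset.sum_congr rfl fun i _ => by rw [add_comm]
  have h4 : ∑ i : Fin k, v (i + 1) ≤ c1 * ∑ i, dd i + 2 := by
    have h5 : ∑ i : Fin k, v (i + 1) ≤ ∑ i : Fin k, (c1 * dd i +
      2 * ((SN n (k + 1) 1 m β N s).Rl (Vale.Agent.P146.Ub.ph hN) (i + 2) -
        (SN n (k + 1) 1 m β N s).Rl (Vale.Agent.P146.Ub.ph hN) (i + 1))) :=
      Finset.sum_le_sum fun i _ => by rw [hv]; exact hX i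
    rw [Finset.sum_add_distrib, ← Finset.mul_sum] at h5
    have h6 := sum_dRl (β := β) hN h0 hm hs
    linarith
  rw [hv] at h2 e3 h4
  rw [e3] at h2
  exact h2.trans (mul_le_mul_of_nonneg_left h4 hP0)

/-- **ROW (AX)**: the sum over the good exponents. -/
theorem sum_VT_le {J q : ℕ} {c1 B : ℝ} {D : Fin k → (Fin k → ℕ) → ℝ} (hN : N ≤ n) (h0 : 0 < N)
    (hs : ∀ l ≤ k + 1, 0 ≤ s l) (hs' : ∀ l, 1 ≤ l → l ≤ k + 1 → s l = √lam)
    (hr : 0 < r) (hr1 : r < 1) (hlam : 0 < lam) (hJ : 0 < J) (hq : 0 < q)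
    (h1 : 4 * k ^ 2 ≤ J * q) (h2 : 4 * (J : ℝ) * Real.exp (-((k : ℝ) / J)) ≤ 1)
    (hc1 : 0 ≤ c1) (hB : 0 ≤ B) (hD : Slp k (J * q) B D)
    (hX : ∀ w : Fin k → ℕ, StrictMono w → (∀ i, 1 ≤ w i ∧ w i ≤ J * q) → ∀ i : Fin k,
      vr (SN n (k + 1) 1 (mw r k (J * q) w) β N s) (fun z _ =>
        rho (SN n (k + 1) 1 (mw r k (J * q) w) β N s) (Vale.Agent.P146.Ub.ph hN) (i + 1) z) ≤
      c1 * dD D w i +
      2 * ((SN n (k + 1) 1 (mw r k (J * q) w) β N s).Rl (Vale.Agent.P146.Ub.ph hN) (i + 2) -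
        (SN n (k + 1) 1 (mw r k (J * q) w) β N s).Rl (Vale.Agent.P146.Ub.ph hN) (i + 1))) :
    ∑ u ∈ Gset k J q, VT n k (mw r k (J * q) (srt (vl u))) β hN s ≤
      (Gset k J q).card * (2 / J * (6 + 2 / (N * lam * r ^ 2)) +
        2 * √(5 / 2 * (2 / J) / (N * lam * r)) + 2 / J * (c1 * (2 * k * B / (J * q)) + 2)) := by
  have hJ0 : (0 : ℝ) < J := by exact_mod_cast hJ
  have hq0 : (0 : ℝ) < q := by exact_mod_cast hq
  have hone : ∀ u ∈ Gset k J q, VT n k (mw r k (J * q) (srt (vl u))) β hN s ≤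
      (2 / J * (6 + 2 / (N * lam * r ^ 2)) + 2 * √(5 / 2 * (2 / J) / (N * lam * r)) +
        2 / J * 2) + 2 / J * c1 * ∑ l, dD D (srt (vl u)) l := by
    intro u hu
    obtain ⟨hsm, hb, -, -, -, hk⟩ := gap_good hJ hq hu
    have hm := mw_exp hr hr1 hsm hb
    have h3 := VT_le (β := β) (P := 2 / J) (c1 := c1) hN h0 hm hs hr hlam (le_of_eq mw_one.symm)
      (fun l hl => mw_gap hr.le hr1.le hJ hq hu (Finset.mem_Ico.1 hl).1)
      (fun l hl => hs' (l + 1) (by omega) (by have := Finset.mem_Ico.1 hl; omega))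
      (by positivity) hc1 (hX _ hsm hb)
    refine h3.trans (le_of_eq ?_)
    ring
  refine (Finset.sum_le_sum hone).trans ?_
  rw [Finset.sum_add_distrib, Finset.sum_const, nsmul_eq_mul, ← Finset.mul_sum]
  have h4 := hD.avg_good hJ hq h1 h2 hB
  have h5 : ∑ u ∈ Gset k J q, ∑ l, dD D (srt (vl u)) l ≤
      (Gset k J q).card * (2 * k * B / (J * q)) := by
    have hJq : (0 : ℝ) < ((J * q : ℕ) : ℝ) := by push_cast; positivity
    have h6 : (Gset k J q).card * (2 * k * B / (J * q)) =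
        (2 * k * B * (Gset k J q).card) / ((J * q : ℕ) : ℝ) := by
      push_cast
      ring
    rw [h6, le_div_iff₀ hJq]
    linarith
  have h7 : 0 ≤ 2 / J * c1 := by positivity
  have h8 := mul_le_mul_of_nonneg_left h5 h7
  refine (add_le_add le_rfl h8).trans (le_of_eq ?_)
  ring

/-- The sum over the good exponents with the constants of the exponent step:
`c1 = 32 / (r h (lam N)²)`, `B = lam N / 2`, `h = (1 - r) / (J q + 1)`. -/
theorem sum_VT_le' {J q : ℕ} {D : Fin k → (Fin k → ℕ) → ℝ} (hN : N ≤ n) (h0 : 0 < N)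
    (hs : ∀ l ≤ k + 1, 0 ≤ s l) (hs' : ∀ l, 1 ≤ l → l ≤ k + 1 → s l = √lam)
    (hr : 0 < r) (hr1 : r < 1) (hlam : 0 < lam) (hJ : 0 < J) (hq : 0 < q)
    (h1 : 4 * k ^ 2 ≤ J * q) (h2 : 4 * (J : ℝ) * Real.exp (-((k : ℝ) / J)) ≤ 1)
    (hD : Slp k (J * q) (lam * N / 2) D)
    (hX : ∀ w : Fin k → ℕ, StrictMono w → (∀ i, 1 ≤ w i ∧ w i ≤ J * q) → ∀ i : Fin k,
      vr (SN n (k + 1) 1 (mw r k (J * q) w) β N s) (fun z _ =>
        rho (SN n (k + 1) 1 (mw r k (J * q) w) β N s) (Vale.Agent.P146.Ub.ph hN) (i + 1) z) ≤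
      32 / (r * ((1 - r) / ((J * q : ℕ) + 1)) * (lam * N) ^ 2) * dD D w i +
      2 * ((SN n (k + 1) 1 (mw r k (J * q) w) β N s).Rl (Vale.Agent.P146.Ub.ph hN) (i + 2) -
        (SN n (k + 1) 1 (mw r k (J * q) w) β N s).Rl (Vale.Agent.P146.Ub.ph hN) (i + 1))) :
    ∑ u ∈ Gset k J q, VT n k (mw r k (J * q) (srt (vl u))) β hN s ≤
      (Gset k J q).card * (2 / J * (8 + 2 / (N * lam * r ^ 2)) +
        2 * √(5 / (J * (N * lam * r))) + 128 * k / (J * (r * (1 - r) * (lam * N)))) := by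
  have hJ0 : (0 : ℝ) < J := by exact_mod_cast hJ
  have hJ1 : (1 : ℝ) ≤ J := by exact_mod_cast hJ
  have hq0 : (0 : ℝ) < q := by exact_mod_cast hq
  have hq1 : (1 : ℝ) ≤ q := by exact_mod_cast hq
  have hN0 : (0 : ℝ) < N := by exact_mod_cast h0
  have hr1' : 0 < 1 - r := by linarith
  have hJq : (0 : ℝ) < ((J * q : ℕ) : ℝ) := by push_cast; positivity
  have h3 := sum_VT_le (β := β) hN h0 hs hs' hr hr1 hlam hJ hq h1 h2
    (c1 := 32 / (r * ((1 - r) / ((J * q : ℕ) + 1)) * (lam * N) ^ 2)) (B := lam * N / 2)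
    (by positivity) (by positivity) hD hX
  refine h3.trans (mul_le_mul_of_nonneg_left ?_ (Nat.cast_nonneg _))
  have e1 : 5 / 2 * (2 / (J : ℝ)) / (N * lam * r) = 5 / (J * (N * lam * r)) := by
    field_simp
  rw [e1]
  have e2 : 32 / (r * ((1 - r) / (((J * q : ℕ) : ℝ) + 1)) * (lam * N) ^ 2) *
      (2 * k * (lam * N / 2) / (J * q)) =
      32 * k / (r * (1 - r) * (lam * N)) * ((J * q + 1) / (J * q)) := by
    push_cast
    field_simp
  rw [e2]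
  have h5 : ((J : ℝ) * q + 1) / (J * q) ≤ 2 := by
    rw [div_le_iff₀ (by positivity)]
    have : (1 : ℝ) ≤ J * q := by nlinarith
    linarith
  have h6 : 0 ≤ 32 * k / (r * (1 - r) * (lam * N)) := by positivity
  have h7 := mul_le_mul_of_nonneg_left h5 h6
  have h8 := mul_le_mul_of_nonneg_left h7 (show (0 : ℝ) ≤ 2 / J by positivity)
  have e3 : 2 / (J : ℝ) * (32 * k / (r * (1 - r) * (lam * N)) * 2) =
      128 * k / (J * (r * (1 - r) * (lam * N))) := by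
    field_simp
    ring
  rw [e3] at h8
  linarith

end Vale.Agent.P146.Gp.Avg
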