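import Vale.Agent.P146.H785.Hes
import Vale.Agent.P146.H713.SkC2

/-!
Deep layers of the free energy, part 1. A *level* is a value function together with the root law
`μ y` of the configuration at the position `y`; a Gaussian layer with the exponent `m ≥ η` leads to
the next level. The linear Riccati inequality: after one layer the conditional variance of every
linear observable of the couplings is at most `|a|² / (η m s² k²)` in the mean.
-/

open MeasureTheory ProbabilityTheory

namespace Vale.Agent.P146.H327

open Vale.Agent.P157.Lv Vale.Agent.P146.H425 Vale.Agent.P146.H785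

set_option linter.unusedSectionVars false

variable {κ : Type} [Fintype κ] [DecidableEq κ] {X : Type} [Fintype X]
  {u F : (κ → ℝ) → ℝ} {D : κ → (κ → ℝ) → ℝ} {H : κ → κ → (κ → ℝ) → ℝ}
  {μ : (κ → ℝ) → X → ℝ} {S : κ → X → ℝ} {B L B2 k η m s : ℝ}

/-! ### the score -/

lemma pd_aff {P : (κ → ℝ) → ℝ} {P' : κ → (κ → ℝ) → ℝ}
    (hP : ∀ z, HasFDerivAt P (lf fun i => P' i z) z) (y : κ → ℝ) (s : ℝ) (e : κ) :
    PD e (fun w => P (y + s • w)) (fun w => s * P' e (y + s • w)) := by
  intro w t
  have h1 : HasDerivAt (fun t => y + s • Function.update w e t) (s • Pi.single e 1) t :=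
    ((hasDerivAt_update w e t).const_smul s).const_add y
  have h2 := (hP (y + s • Function.update w e t)).comp_hasDerivAt t h1
  refine h2.congr_deriv ?_
  rw [lf_apply]
  rw [Finset.sum_eq_single e]
  · simp; ring
  · intro i _ hi
    simp [Pi.single_apply, hi]
  · intro h
    exact absurd (Finset.mem_univ e) h

lemma C2.egu (h : C2 u D H B L B2) : EG u := (h.c1.lip.lip h.c1.B0).eg

/-- the score in the direction `a` -/
noncomputable def scr (m s : ℝ) (D : κ → (κ → ℝ) → ℝ) (a y w : κ → ℝ) : ℝ :=
  ∑ i, a i * w i - m * s * ∑ i, a i * D i (y + s • w)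

lemma eg_scr (h : C2 u D H B L B2) (m s : ℝ) (a y : κ → ℝ) : EG (scr m s D a y) := by
  unfold scr
  refine (EG.sum _ fun i _ => (EG.coord i).const_mul _).sub
    ((EG.sum _ fun i _ => (EG.add_smul (h.egD i) y s).const_mul _).const_mul _)

lemma pd_scr (h : C2 u D H B L B2) (m s : ℝ) (a y : κ → ℝ) (e : κ) :
    PD e (scr m s D a y) (fun w => a e - m * s ^ 2 * ∑ i, a i * H i e (y + s • w)) := by
  intro w t
  unfold scr
  have h1 : HasDerivAt (fun t => ∑ i, a i * Function.update w e t i) (a e) t := by
    have h2 : HasDerivAt (fun t => ∑ i, a i * Function.update w e t i)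
        (∑ i, a i * (Pi.single e 1 : κ → ℝ) i) t := by
      refine HasDerivAt.fun_sum fun i _ => ?_
      exact ((hasDerivAt_pi.1 (hasDerivAt_update w e t)) i).const_mul _
    refine h2.congr_deriv ?_
    rw [Finset.sum_eq_single e]
    · simp
    · intro i _ hi
      simp [Pi.single_apply, hi]
    · intro h
      exact absurd (Finset.mem_univ e) h
  have h2 : HasDerivAt (fun t => ∑ i, a i * D i (y + s • Function.update w e t))
      (∑ i, a i * (s * H i e (y + s • Function.update w e t))) t := by
    refine HasDerivAt.fun_sum fun i _ => ?_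
    exact (pd_aff (P := D i) (P' := H i) (h.dv i) y s e w t).const_mul _
  refine (h1.sub (h2.const_mul (m * s))).congr_deriv ?_
  have e1 : ∑ i, a i * (s * H i e (y + s • Function.update w e t)) =
      s * ∑ i, a i * H i e (y + s • Function.update w e t) := by
    rw [Finset.mul_sum]
    exact Finset.sum_congr rfl fun i _ => by ring
  rw [e1]
  ring

/-- **The linear Riccati inequality.** -/
theorem riccati (h : C2 u D H B L B2) (m s : ℝ) (a y : κ → ℝ) :
    m * s ^ 2 * Ax m s u (fun z => ∑ e, ∑ i, H e i z * a e * a i) y ≤ ∑ e, a e ^ 2 := by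
  set g : (κ → ℝ) → ℝ := fun w => Real.exp (m * u (y + s • w)) with hg
  have eg : EG g := h.c1.lip.eg_exp h.c1.B0 y s m
  set φ := scr m s D a y with hφ
  have eφ : EG φ := eg_scr h m s a y
  have hpos : 0 < ∫ w, g w ∂(gI κ) := h.c1.lip.pos h.c1.B0 y s m
  have pdg : ∀ e, PD e g (fun w => m * s * D e (y + s • w) * g w) := by
    intro e w t
    have h1 := (pd_aff (P := u) (P' := D) (fun z => C11.hasFDerivAt h.c1 z) y s e w t).const_mul m
    refine h1.exp.congr_deriv ?_
    simp only [hg]
    ring
  have hD : ∀ e, EG fun w => D e (y + s • w) := fun e => EG.add_smul (h.egD e) y s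
  have hH : ∀ i e, EG fun w => H i e (y + s • w) := fun i e => EG.add_smul (h.egH i e) y s
  have st : ∀ e, ∫ w, w e * (g w * φ w) ∂(gI κ) = ∫ w, (m * s * D e (y + s • w) * g w * φ w +
      g w * (a e - m * s ^ 2 * ∑ i, a i * H i e (y + s • w))) ∂(gI κ) := by
    intro e
    refine PD.stein (H := fun w => g w * φ w) ?_ (eg.mul eφ) ?_
    · intro w t
      exact (pdg e w t).mul (pd_scr h m s a y e w t)
    · exact ((((hD e).const_mul (m * s)).mul eg).mul eφ).add
        (eg.mul ((EG.const _).sub ((EG.sum _ fun i _ => (hH i e).const_mul _).const_mul _)))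
  have key : ∫ w, g w * (φ w * φ w) ∂(gI κ) = ∫ w, g w * (∑ e, a e ^ 2 -
      m * s ^ 2 * ∑ e, ∑ i, H e i (y + s • w) * a e * a i) ∂(gI κ) := by
    have e1 : ∀ w, g w * (φ w * φ w) = ∑ e, a e * (w e * (g w * φ w)) -
        ∑ e, a e * (m * s * D e (y + s • w) * g w * φ w) := by
      intro w
      rw [← Finset.sum_sub_distrib]
      have e2 : φ w = ∑ e, (a e * w e - a e * (m * s * D e (y + s • w))) := by
        rw [hφ]
        unfold scr
        rw [Finset.mul_sum, ← Finset.sum_sub_distrib]
        exact Finset.sum_congr rfl fun i _ => by ring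
      calc g w * (φ w * φ w) = (g w * φ w) * φ w := by ring
        _ = (g w * φ w) * ∑ e, (a e * w e - a e * (m * s * D e (y + s • w))) := by rw [← e2]
        _ = _ := by
          rw [Finset.mul_sum]
          exact Finset.sum_congr rfl fun e _ => by ring
    have i1 : ∀ e ∈ (Finset.univ : Finset κ), Integrable (fun w => a e * (w e * (g w * φ w)))
        (gI κ) := fun e _ => ((EG.coord e).mul (eg.mul eφ)).integrable.const_mul _
    have i2 : ∀ e ∈ (Finset.univ : Finset κ), Integrable
        (fun w => a e * (m * s * D e (y + s • w) * g w * φ w)) (gI κ) := fun e _ =>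
      (((((hD e).const_mul (m * s)).mul eg).mul eφ).const_mul _).integrable
    have i3 : ∀ e ∈ (Finset.univ : Finset κ), Integrable (fun w => a e * (g w * (a e -
        m * s ^ 2 * ∑ i, a i * H i e (y + s • w)))) (gI κ) := fun e _ =>
      ((eg.mul ((EG.const _).sub ((EG.sum _ fun i _ =>
        (hH i e).const_mul _).const_mul _))).const_mul _).integrable
    simp_rw [e1]
    rw [integral_sub (integrable_finsetSum _ i1) (integrable_finsetSum _ i2),
      integral_finsetSum _ i1, integral_finsetSum _ i2, ← Finset.sum_sub_distrib]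
    have e3 : ∀ e, ∫ w, a e * (w e * (g w * φ w)) ∂(gI κ) -
        ∫ w, a e * (m * s * D e (y + s • w) * g w * φ w) ∂(gI κ) =
        ∫ w, a e * (g w * (a e - m * s ^ 2 * ∑ i, a i * H i e (y + s • w))) ∂(gI κ) := by
      intro e
      rw [integral_const_mul, st e, integral_add, integral_const_mul, integral_const_mul]
      · ring
      · exact ((((hD e).const_mul (m * s)).mul eg).mul eφ).integrable
      · exact (eg.mul ((EG.const _).sub ((EG.sum _ fun i _ =>
          (hH i e).const_mul _).const_mul _))).integrable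
    rw [Finset.sum_congr rfl fun e _ => e3 e, ← integral_finsetSum _ i3]
    refine integral_congr_ae (Filter.Eventually.of_forall fun w => ?_)
    simp only
    have e4 : ∑ e, ∑ i, H e i (y + s • w) * a e * a i =
        ∑ e, a e * ∑ i, a i * H i e (y + s • w) := by
      refine Finset.sum_congr rfl fun e _ => ?_
      rw [Finset.mul_sum]
      exact Finset.sum_congr rfl fun i _ => by rw [h.sym e i]; ring
    rw [e4, Finset.mul_sum, ← Finset.sum_sub_distrib, Finset.mul_sum]
    exact Finset.sum_congr rfl fun e _ => by ring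
  have h0 : 0 ≤ ∫ w, g w * (φ w * φ w) ∂(gI κ) := integral_nonneg fun w =>
    mul_nonneg (Real.exp_pos _).le (mul_self_nonneg _)
  rw [key] at h0
  have eV : EG fun w => ∑ e, ∑ i, H e i (y + s • w) * a e * a i :=
    EG.sum _ fun e _ => EG.sum _ fun i _ => by
      have := (hH e i).const_mul (a e * a i)
      refine this.mono (((h.meas e i).comp (by fun_prop)).mul_const _ |>.mul_const _)
        fun w => le_of_eq (by congr 1; ring)
  have e5 : ∀ w, g w * (∑ e, a e ^ 2 - m * s ^ 2 * ∑ e, ∑ i, H e i (y + s • w) * a e * a i) =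
      (∑ e, a e ^ 2) * g w - m * s ^ 2 * (g w * ∑ e, ∑ i, H e i (y + s • w) * a e * a i) :=
    fun w => by ring
  simp_rw [e5] at h0
  rw [integral_sub (eg.integrable.const_mul _) ((eg.mul eV).integrable.const_mul _),
    integral_const_mul, integral_const_mul] at h0
  unfold Ax
  rw [← mul_div_assoc, div_le_iff₀ hpos]
  linarith

end Vale.Agent.P146.H327
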