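import Vale.Agent.P146.H327.Deep1

/-!
Deep layers of the free energy, part 2: levels and layers.
-/

open MeasureTheory ProbabilityTheory

namespace Vale.Agent.P146.H327

open Vale.Agent.P157.Lv Vale.Agent.P146.H425 Vale.Agent.P146.H785

set_option linter.unusedSectionVars false

variable {κ : Type} [Fintype κ] [DecidableEq κ] {X : Type} [Fintype X]
  {u F : (κ → ℝ) → ℝ} {D : κ → (κ → ℝ) → ℝ} {H : κ → κ → (κ → ℝ) → ℝ}
  {μ : (κ → ℝ) → X → ℝ} {S : κ → X → ℝ} {B L B2 k η m s : ℝ}

/-- The mean of the observable `f` under the root law. -/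
noncomputable def mn (μ : (κ → ℝ) → X → ℝ) (f : X → ℝ) (y : κ → ℝ) : ℝ := ∑ x, μ y x * f x

/-- The variance of the observable `f` under the root law. -/
noncomputable def vr (μ : (κ → ℝ) → X → ℝ) (f : X → ℝ) (y : κ → ℝ) : ℝ :=
  mn μ (fun x => f x ^ 2) y - mn μ f y ^ 2

/-- The root law after one more layer. -/
noncomputable def nx (m s : ℝ) (u : (κ → ℝ) → ℝ) (μ : (κ → ℝ) → X → ℝ) (y : κ → ℝ) (x : X) : ℝ :=
  Ax m s u (fun z => μ z x) y

/-- A probability vector depending measurably on the position. -/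
structure Pv (μ : (κ → ℝ) → X → ℝ) : Prop where
  nn : ∀ y x, 0 ≤ μ y x
  one : ∀ y, ∑ x, μ y x = 1
  ms : ∀ x, Measurable fun y => μ y x

lemma Pv.le_one (h : Pv μ) (y : κ → ℝ) (x : X) : μ y x ≤ 1 := by
  rw [← h.one y]
  exact Finset.single_le_sum (f := fun x => μ y x) (fun x _ => h.nn y x) (Finset.mem_univ x)

lemma Pv.eg (h : Pv μ) (x : X) : EG fun y => μ y x :=
  EG.of_bdd (C := 1) (h.ms x) fun y => by rw [abs_of_nonneg (h.nn y x)]; exact h.le_one y x

lemma Pv.eg_mn (h : Pv μ) (f : X → ℝ) : EG (mn μ f) :=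
  EG.sum _ fun x _ => (h.eg x).mul (EG.const _)

lemma Pv.mn_const (h : Pv μ) (c : ℝ) (y : κ → ℝ) : mn μ (fun _ => c) y = c := by
  unfold mn
  rw [← Finset.sum_mul, h.one, one_mul]

lemma mn_add (f g : X → ℝ) (y : κ → ℝ) :
    mn μ (fun x => f x + g x) y = mn μ f y + mn μ g y := by
  unfold mn
  rw [← Finset.sum_add_distrib]
  exact Finset.sum_congr rfl fun x _ => by ring

lemma mn_const_mul (c : ℝ) (f : X → ℝ) (y : κ → ℝ) :
    mn μ (fun x => c * f x) y = c * mn μ f y := by
  unfold mn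
  rw [Finset.mul_sum]
  exact Finset.sum_congr rfl fun x _ => by ring

lemma mn_sub (f g : X → ℝ) (y : κ → ℝ) :
    mn μ (fun x => f x - g x) y = mn μ f y - mn μ g y := by
  unfold mn
  rw [← Finset.sum_sub_distrib]
  exact Finset.sum_congr rfl fun x _ => by ring

lemma mn_sum {I : Type*} (T : Finset I) (f : I → X → ℝ) (y : κ → ℝ) :
    mn μ (fun x => ∑ i ∈ T, f i x) y = ∑ i ∈ T, mn μ (f i) y := by
  unfold mn
  rw [Finset.sum_comm]
  exact Finset.sum_congr rfl fun x _ => by rw [Finset.mul_sum]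

lemma Pv.mn_mono (h : Pv μ) {f g : X → ℝ} (hle : ∀ x, f x ≤ g x) (y : κ → ℝ) :
    mn μ f y ≤ mn μ g y :=
  Finset.sum_le_sum fun x _ => mul_le_mul_of_nonneg_left (hle x) (h.nn y x)

lemma Pv.mn_nonneg (h : Pv μ) {f : X → ℝ} (hle : ∀ x, 0 ≤ f x) (y : κ → ℝ) : 0 ≤ mn μ f y :=
  Finset.sum_nonneg fun x _ => mul_nonneg (h.nn y x) (hle x)

/-- the variance as a mean of squares -/
lemma Pv.vr_eq (h : Pv μ) (f : X → ℝ) (y : κ → ℝ) :
    vr μ f y = mn μ (fun x => (f x - mn μ f y) ^ 2) y := by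
  unfold vr
  have e : (fun x => (f x - mn μ f y) ^ 2) =
      fun x => (f x ^ 2 - 2 * mn μ f y * f x) + mn μ f y ^ 2 := by
    funext x; ring
  rw [e, mn_add, mn_sub, mn_const_mul, h.mn_const]
  ring

lemma Pv.vr_nonneg (h : Pv μ) (f : X → ℝ) (y : κ → ℝ) : 0 ≤ vr μ f y := by
  rw [h.vr_eq]
  exact h.mn_nonneg (fun x => sq_nonneg _) y

/-- the variance is at most the mean square around any constant -/
lemma Pv.vr_le (h : Pv μ) (f : X → ℝ) (c : ℝ) (y : κ → ℝ) :
    vr μ f y ≤ mn μ (fun x => (f x - c) ^ 2) y := by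
  have e : (fun x => (f x - c) ^ 2) = fun x => (f x ^ 2 - 2 * c * f x) + c ^ 2 := by
    funext x; ring
  rw [e, mn_add, mn_sub, mn_const_mul, h.mn_const]
  unfold vr
  nlinarith [sq_nonneg (mn μ f y - c)]

lemma Pv.vr_add_le (h : Pv μ) (f g : X → ℝ) (y : κ → ℝ) :
    vr μ (fun x => f x + g x) y ≤ 2 * vr μ f y + 2 * mn μ (fun x => g x ^ 2) y := by
  refine (h.vr_le (fun x => f x + g x) (mn μ f y) y).trans ?_
  rw [h.vr_eq f y, ← mn_const_mul, ← mn_const_mul, ← mn_add]
  refine h.mn_mono (fun x => ?_) y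
  nlinarith [sq_nonneg (f x - mn μ f y - g x)]

lemma vr_const_mul (c : ℝ) (f : X → ℝ) (y : κ → ℝ) :
    vr μ (fun x => c * f x) y = c ^ 2 * vr μ f y := by
  unfold vr
  rw [mn_const_mul]
  have e : (fun x => (c * f x) ^ 2) = fun x => c ^ 2 * f x ^ 2 := by funext x; ring
  rw [e, mn_const_mul]
  ring

lemma Pv.vr_add_const (h : Pv μ) (c : ℝ) (f : X → ℝ) (y : κ → ℝ) :
    vr μ (fun x => f x + c) y = vr μ f y := by
  rw [h.vr_eq, h.vr_eq]
  congr 1
  funext x
  rw [mn_add, h.mn_const]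
  ring

lemma Pv.mn_sq_le (h : Pv μ) (f : X → ℝ) (y : κ → ℝ) : mn μ f y ^ 2 ≤ mn μ (fun x => f x ^ 2) y := by
  have := h.vr_nonneg f y
  unfold vr at this
  linarith

lemma Pv.eg_vr (h : Pv μ) (f : X → ℝ) : EG (vr μ f) := (h.eg_mn _).sub ((h.eg_mn f).pow 2)

/-! ### one layer -/

section layer
variable (hl : LipB u B) (hB : 0 ≤ B)
include hl hB

lemma Pv.nx (h : Pv μ) (m s : ℝ) : Pv (nx m s u μ) where
  nn y x := by
    unfold H327.nx
    rw [← Ax_const hl hB 0 m s y]
    exact Ax_mono hl hB (EG.const 0) (h.eg x) (fun z => h.nn z x) m s y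
  one y := by
    unfold H327.nx
    rw [← Ax_sum hl hB _ fun x _ => h.eg x]
    have e : (fun z => ∑ x, μ z x) = fun _ => (1 : ℝ) := by funext z; exact h.one z
    rw [e, Ax_const hl hB]
  ms x := Ax_meas hl hB (h.eg x) m s

lemma mn_nx (h : Pv μ) (m s : ℝ) (f : X → ℝ) (y : κ → ℝ) :
    mn (nx m s u μ) f y = Ax m s u (mn μ f) y := by
  unfold mn nx
  rw [Ax_sum hl hB _ fun x _ => (h.eg x).mul (EG.const _)]
  refine Finset.sum_congr rfl fun x _ => ?_
  have e : (fun z => μ z x * f x) = fun z => f x * μ z x := by funext z; ring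
  rw [e, Ax_const_mul]
  ring

/-- the law of total variance -/
lemma vr_nx (h : Pv μ) (m s : ℝ) (f : X → ℝ) (y : κ → ℝ) :
    vr (nx m s u μ) f y = Ax m s u (vr μ f) y +
      (Ax m s u (fun z => mn μ f z * mn μ f z) y - Ax m s u (mn μ f) y ^ 2) := by
  unfold vr
  rw [mn_nx hl hB h, mn_nx hl hB h]
  have e : (fun z => mn μ (fun x => f x ^ 2) z - mn μ f z ^ 2) =
      fun z => mn μ (fun x => f x ^ 2) z + -1 * (mn μ f z * mn μ f z) := by
    funext z; ring
  rw [e, Ax_add hl hB (h.eg_mn _) (((h.eg_mn f).mul (h.eg_mn f)).const_mul _), Ax_const_mul]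
  ring

end layer

/-! ### levels -/

/-- A level: the value function `u` with its gradient and Hessian, and the root law. -/
structure Lev (k η : ℝ) (S : κ → X → ℝ) (B : ℝ) (u : (κ → ℝ) → ℝ) (D : κ → (κ → ℝ) → ℝ)
    (H : κ → κ → (κ → ℝ) → ℝ) (μ : (κ → ℝ) → X → ℝ) : Prop where
  c2 : ∃ L B2, C2 u D H B L B2
  pv : Pv μ
  gr : ∀ e y, D e y = k * mn μ (S e) y
  gap : ∀ (a : κ → ℝ) (y : κ → ℝ), η * (k ^ 2 * vr μ (fun x => ∑ e, a e * S e x) y) ≤
    ∑ e, ∑ i, H e i y * a e * a i

/-- **One more layer.** -/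
theorem Lev.step (h : Lev k η S B u D H μ) (hη : 0 ≤ η) (hm0 : 0 < m) (hm : η ≤ m) (s : ℝ) :
    Lev k η S B (W m s u) (DW m s u D) (HW m s u D H) (nx m s u μ) := by
  obtain ⟨L, B2, c2⟩ := h.c2
  have hl := c2.c1.lip
  have hB := c2.c1.B0
  refine ⟨⟨_, _, c2.W hm0 s⟩, h.pv.nx hl hB m s, fun e y => ?_, fun a y => ?_⟩
  · rw [DW_eq, mn_nx hl hB h.pv, ← Ax_const_mul]
    congr 1
    funext z
    exact h.gr e z
  · set f : X → ℝ := fun x => ∑ e, a e * S e x with hf
    have hmf : ∀ z, ∑ e, D e z * a e = k * mn μ f z := by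
      intro z
      rw [hf, mn_sum, Finset.mul_sum]
      refine Finset.sum_congr rfl fun e _ => ?_
      rw [mn_const_mul, h.gr]
      ring
    -- the Hessian of the layer
    have eH : ∀ e i, EG (H e i) := fun e i => c2.egH e i
    have eD : ∀ e, EG (D e) := fun e => c2.egD e
    have e1 : ∑ e, ∑ i, HW m s u D H e i y * a e * a i =
        Ax m s u (fun z => ∑ e, ∑ i, H e i z * a e * a i) y +
        m * (Ax m s u (fun z => (∑ e, D e z * a e) * ∑ e, D e z * a e) y -
          Ax m s u (fun z => ∑ e, D e z * a e) y ^ 2) := by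
      have a1 : Ax m s u (fun z => ∑ e, ∑ i, H e i z * a e * a i) y =
          ∑ e, ∑ i, Ax m s u (H e i) y * a e * a i := by
        have : (fun z => ∑ e, ∑ i, H e i z * a e * a i) =
            fun z => ∑ e, ∑ i, (a e * a i) * H e i z := by
          funext z
          exact Finset.sum_congr rfl fun e _ => Finset.sum_congr rfl fun i _ => by ring
        rw [this, Ax_sum hl hB _ fun e _ => EG.sum _ fun i _ => (eH e i).const_mul _]
        refine Finset.sum_congr rfl fun e _ => ?_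
        rw [Ax_sum hl hB _ fun i _ => (eH e i).const_mul _]
        refine Finset.sum_congr rfl fun i _ => ?_
        rw [Ax_const_mul]
        ring
      have a2 : Ax m s u (fun z => (∑ e, D e z * a e) * ∑ e, D e z * a e) y =
          ∑ e, ∑ i, Ax m s u (fun z => D e z * D i z) y * a e * a i := by
        have : (fun z => (∑ e, D e z * a e) * ∑ e, D e z * a e) =
            fun z => ∑ e, ∑ i, (a e * a i) * (D e z * D i z) := by
          funext z
          rw [Finset.sum_mul_sum]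
          exact Finset.sum_congr rfl fun e _ => Finset.sum_congr rfl fun i _ => by ring
        rw [this, Ax_sum hl hB _ fun e _ => EG.sum _ fun i _ =>
          ((eD e).mul (eD i)).const_mul _]
        refine Finset.sum_congr rfl fun e _ => ?_
        rw [Ax_sum hl hB _ fun i _ => ((eD e).mul (eD i)).const_mul _]
        refine Finset.sum_congr rfl fun i _ => ?_
        rw [Ax_const_mul]
        ring
      have a3 : Ax m s u (fun z => ∑ e, D e z * a e) y = ∑ e, DW m s u D e y * a e := by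
        have : (fun z => ∑ e, D e z * a e) = fun z => ∑ e, a e * D e z := by
          funext z
          exact Finset.sum_congr rfl fun e _ => by ring
        rw [this, Ax_sum hl hB _ fun e _ => (eD e).const_mul _]
        refine Finset.sum_congr rfl fun e _ => ?_
        rw [Ax_const_mul, DW_eq]
        ring
      rw [a1, a2, a3, sq, Finset.sum_mul_sum, ← Finset.sum_sub_distrib, Finset.mul_sum,
        ← Finset.sum_add_distrib]
      refine Finset.sum_congr rfl fun e _ => ?_
      rw [← Finset.sum_sub_distrib, Finset.mul_sum, ← Finset.sum_add_distrib]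
      refine Finset.sum_congr rfl fun i _ => ?_
      unfold HW
      ring
    have e2 : (fun z => (∑ e, D e z * a e) * ∑ e, D e z * a e) =
        fun z => k ^ 2 * (mn μ f z * mn μ f z) := by
      funext z
      rw [hmf]
      ring
    have e3 : (fun z => ∑ e, D e z * a e) = fun z => k * mn μ f z := by
      funext z
      exact hmf z
    rw [e1, e2, e3, Ax_const_mul, Ax_const_mul]
    have g1 : Ax m s u (fun z => η * (k ^ 2 * vr μ f z)) y ≤
        Ax m s u (fun z => ∑ e, ∑ i, H e i z * a e * a i) y := by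
      refine Ax_mono hl hB (((h.pv.eg_vr f).const_mul _).const_mul _) ?_ (fun z => h.gap a z) m s y
      exact EG.sum _ fun e _ => EG.sum _ fun i _ => by
        have := (eH e i).const_mul (a e * a i)
        refine this.mono (((c2.meas e i).mul_const _).mul_const _)
          fun w => le_of_eq (by congr 1; ring)
    rw [Ax_const_mul, Ax_const_mul] at g1
    have g2 : 0 ≤ Ax m s u (fun z => mn μ f z * mn μ f z) y - Ax m s u (mn μ f) y ^ 2 := by
      have := Ax_sq_le hl hB (h.pv.eg_mn f) m s y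
      linarith
    rw [vr_nx hl hB h.pv]
    have g3 : η * (k ^ 2 * (Ax m s u (fun z => mn μ f z * mn μ f z) y -
        Ax m s u (mn μ f) y ^ 2)) ≤ m * (k ^ 2 * (Ax m s u (fun z => mn μ f z * mn μ f z) y -
        Ax m s u (mn μ f) y ^ 2)) :=
      mul_le_mul_of_nonneg_right hm (mul_nonneg (sq_nonneg _) g2)
    nlinarith [g1, g3]

/-- **The conditional variance of a linear observable after one layer.** -/
theorem Lev.riccati (h : Lev k η S B u D H μ) (hη : 0 < η) (hk : k ≠ 0) (hm0 : 0 < m)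
    (hs : s ≠ 0) (a y : κ → ℝ) :
    Ax m s u (vr μ (fun x => ∑ e, a e * S e x)) y ≤
      (∑ e, a e ^ 2) / (η * m * s ^ 2 * k ^ 2) := by
  obtain ⟨L, B2, c2⟩ := h.c2
  have hl := c2.c1.lip
  have hB := c2.c1.B0
  have h1 := H327.riccati c2 m s a y
  have g1 : Ax m s u (fun z => η * (k ^ 2 * vr μ (fun x => ∑ e, a e * S e x) z)) y ≤
      Ax m s u (fun z => ∑ e, ∑ i, H e i z * a e * a i) y := by
    refine Ax_mono hl hB (((h.pv.eg_vr _).const_mul _).const_mul _) ?_ (fun z => h.gap a z) m s y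
    exact EG.sum _ fun e _ => EG.sum _ fun i _ => by
      have := (c2.egH e i).const_mul (a e * a i)
      refine this.mono (((c2.meas e i).mul_const _).mul_const _)
        fun w => le_of_eq (by congr 1; ring)
  rw [Ax_const_mul, Ax_const_mul] at g1
  have hpos : 0 < η * m * s ^ 2 * k ^ 2 := by positivity
  rw [le_div_iff₀ hpos]
  have g2 := mul_le_mul_of_nonneg_left g1 (show 0 ≤ m * s ^ 2 by positivity)
  calc Ax m s u (vr μ fun x => ∑ e, a e * S e x) y * (η * m * s ^ 2 * k ^ 2) =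
        m * s ^ 2 * (η * (k ^ 2 * Ax m s u (vr μ fun x => ∑ e, a e * S e x) y)) := by ring
    _ ≤ _ := g2.trans h1

end Vale.Agent.P146.H327
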