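import Vale.Agent.P146.H327.Deep2

/-!
Deep layers of the free energy, part 3: the locking of the overlap after one layer. Two replicas
which are separated at the position `y` have the squared overlap `Bq ν`, two replicas which are
separated one layer below have the mean overlap `aq μ`; a small conditional variance of the overlap
forces `(E aq)² ≥ Bq - 2 ω`.
-/

open MeasureTheory ProbabilityTheory

namespace Vale.Agent.P146.H327

open Vale.Agent.P157.Lv Vale.Agent.P146.H425 Vale.Agent.P146.H785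

set_option linter.unusedSectionVars false

variable {κ : Type} [Fintype κ] [DecidableEq κ] {X : Type} [Fintype X] {ι : Type} [Fintype ι]
  {u F : (κ → ℝ) → ℝ} {D : κ → (κ → ℝ) → ℝ} {H : κ → κ → (κ → ℝ) → ℝ}
  {μ : (κ → ℝ) → X → ℝ} {S : κ → X → ℝ} {τ : ι → X → ℝ} {B L B2 k η m s q ω : ℝ}

/-! ### pairs of replicas -/

/-- the mean over a pair of replicas with the same position -/
noncomputable def pm (μ : (κ → ℝ) → X → ℝ) (f : X → X → ℝ) (z : κ → ℝ) : ℝ :=
  ∑ x, ∑ x', μ z x * μ z x' * f x x'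

/-- the mean squared overlap of a pair of replicas with the same position -/
noncomputable def Bq (μ : (κ → ℝ) → X → ℝ) (τ : ι → X → ℝ) (z : κ → ℝ) : ℝ :=
  ∑ j, ∑ l, mn μ (fun x => τ j x * τ l x) z ^ 2

/-- the mean overlap of a pair of replicas with the same position -/
noncomputable def aq (μ : (κ → ℝ) → X → ℝ) (τ : ι → X → ℝ) (z : κ → ℝ) : ℝ :=
  ∑ j, mn μ (τ j) z ^ 2

lemma pm_mul (f g : X → ℝ) (z : κ → ℝ) :
    pm μ (fun x x' => f x * g x') z = mn μ f z * mn μ g z := by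
  unfold pm mn
  rw [Finset.sum_mul_sum]
  exact Finset.sum_congr rfl fun x _ => Finset.sum_congr rfl fun x' _ => by ring

lemma pm_sum {I : Type*} (T : Finset I) (f : I → X → X → ℝ) (z : κ → ℝ) :
    pm μ (fun x x' => ∑ i ∈ T, f i x x') z = ∑ i ∈ T, pm μ (f i) z := by
  unfold pm
  rw [Finset.sum_comm]
  have : ∀ x, ∑ x', μ z x * μ z x' * ∑ i ∈ T, f i x x' =
      ∑ i ∈ T, ∑ x', μ z x * μ z x' * f i x x' := by
    intro x
    rw [Finset.sum_comm]
    exact Finset.sum_congr rfl fun x' _ => by rw [Finset.mul_sum]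
  rw [Finset.sum_comm]
  simp only [this]
  rw [Finset.sum_comm]

lemma pm_add (f g : X → X → ℝ) (z : κ → ℝ) :
    pm μ (fun x x' => f x x' + g x x') z = pm μ f z + pm μ g z := by
  unfold pm
  rw [← Finset.sum_add_distrib]
  refine Finset.sum_congr rfl fun x _ => ?_
  rw [← Finset.sum_add_distrib]
  exact Finset.sum_congr rfl fun x' _ => by ring

lemma pm_const_mul (c : ℝ) (f : X → X → ℝ) (z : κ → ℝ) :
    pm μ (fun x x' => c * f x x') z = c * pm μ f z := by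
  unfold pm
  rw [Finset.mul_sum]
  refine Finset.sum_congr rfl fun x _ => ?_
  rw [Finset.mul_sum]
  exact Finset.sum_congr rfl fun x' _ => by ring

lemma Pv.pm_const (h : Pv μ) (c : ℝ) (z : κ → ℝ) : pm μ (fun _ _ => c) z = c := by
  have := pm_mul (μ := μ) (fun _ => c) (fun _ => (1 : ℝ)) z
  rw [h.mn_const, h.mn_const] at this
  simpa using this

lemma Pv.pm_mono (h : Pv μ) {f g : X → X → ℝ} (hle : ∀ x x', f x x' ≤ g x x') (z : κ → ℝ) :
    pm μ f z ≤ pm μ g z :=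
  Finset.sum_le_sum fun x _ => Finset.sum_le_sum fun x' _ =>
    mul_le_mul_of_nonneg_left (hle x x') (mul_nonneg (h.nn z x) (h.nn z x'))

lemma Pv.eg_pm (h : Pv μ) (f : X → X → ℝ) : EG (pm μ f) :=
  EG.sum _ fun x _ => EG.sum _ fun x' _ => ((h.eg x).mul (h.eg x')).mul (EG.const _)

lemma pm_lin (τ : ι → X → ℝ) (z : κ → ℝ) :
    pm μ (fun x x' => ∑ j, τ j x * τ j x') z = aq μ τ z := by
  rw [pm_sum]
  unfold aq
  refine Finset.sum_congr rfl fun j _ => ?_
  rw [pm_mul, sq]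

lemma pm_sq (τ : ι → X → ℝ) (z : κ → ℝ) :
    pm μ (fun x x' => (∑ j, τ j x * τ j x') ^ 2) z = Bq μ τ z := by
  have e : (fun x x' => (∑ j, τ j x * τ j x') ^ 2) =
      fun x x' => ∑ j, ∑ l, (τ j x * τ l x) * (τ j x' * τ l x') := by
    funext x x'
    rw [sq, Finset.sum_mul_sum]
    exact Finset.sum_congr rfl fun j _ => Finset.sum_congr rfl fun l _ => by ring
  rw [e, pm_sum]
  unfold Bq
  refine Finset.sum_congr rfl fun j _ => ?_
  rw [pm_sum]
  refine Finset.sum_congr rfl fun l _ => ?_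
  rw [pm_mul, sq]

lemma Pv.pm_dev (h : Pv μ) (τ : ι → X → ℝ) (q : ℝ) (z : κ → ℝ) :
    pm μ (fun x x' => (∑ j, τ j x * τ j x' - q) ^ 2) z =
      Bq μ τ z + (-(2 * q)) * aq μ τ z + q ^ 2 := by
  have e : (fun x x' => (∑ j, τ j x * τ j x' - q) ^ 2) =
      fun x x' => ((∑ j, τ j x * τ j x') ^ 2 + (-(2 * q)) * ∑ j, τ j x * τ j x') + q ^ 2 := by
    funext x x'; ring
  rw [e, pm_add, pm_add, pm_sq, pm_const_mul, pm_lin, h.pm_const]

lemma Bq_nonneg (z : κ → ℝ) : 0 ≤ Bq μ τ z :=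
  Finset.sum_nonneg fun _ _ => Finset.sum_nonneg fun _ _ => sq_nonneg _

lemma aq_nonneg (z : κ → ℝ) : 0 ≤ aq μ τ z := Finset.sum_nonneg fun _ _ => sq_nonneg _

lemma Pv.eg_Bq (h : Pv μ) (τ : ι → X → ℝ) : EG (Bq μ τ) :=
  EG.sum _ fun _ _ => EG.sum _ fun _ _ => (h.eg_mn _).pow 2

lemma Pv.eg_aq (h : Pv μ) (τ : ι → X → ℝ) : EG (aq μ τ) :=
  EG.sum _ fun _ _ => (h.eg_mn _).pow 2

lemma Bq_congr {τ' : ι → X → ℝ} (h : ∀ j l x, τ j x * τ l x = τ' j x * τ' l x) (z : κ → ℝ) :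
    Bq μ τ z = Bq μ τ' z := by
  unfold Bq
  refine Finset.sum_congr rfl fun j _ => Finset.sum_congr rfl fun l _ => ?_
  have : (fun x => τ j x * τ l x) = fun x => τ' j x * τ' l x := funext fun x => h j l x
  rw [this]

/-! ### one layer -/

/-- the covariances as variances -/
lemma vr_lin (c : ι → ℝ) (τ : ι → X → ℝ) (z : κ → ℝ) :
    vr μ (fun x => ∑ j, c j * τ j x) z =
      ∑ j, ∑ l, (c j * c l) * (mn μ (fun x => τ j x * τ l x) z +
        -1 * (mn μ (τ j) z * mn μ (τ l) z)) := by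
  unfold vr
  have e : (fun x => (∑ j, c j * τ j x) ^ 2) =
      fun x => ∑ j, ∑ l, (c j * c l) * (τ j x * τ l x) := by
    funext x
    rw [sq, Finset.sum_mul_sum]
    exact Finset.sum_congr rfl fun j _ => Finset.sum_congr rfl fun l _ => by ring
  rw [e, mn_sum, mn_sum, sq, Finset.sum_mul_sum, ← Finset.sum_sub_distrib]
  refine Finset.sum_congr rfl fun j _ => ?_
  rw [mn_sum, ← Finset.sum_sub_distrib]
  refine Finset.sum_congr rfl fun l _ => ?_
  rw [mn_const_mul, mn_const_mul, mn_const_mul]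
  ring

section layer
variable (hl : LipB u B) (hB : 0 ≤ B)
include hl hB

/-- **Locking after one layer.** -/
theorem lock (h : Pv μ) (m s : ℝ) (y : κ → ℝ)
    (hω : ∀ x', Ax m s u (vr μ (fun x => ∑ j, τ j x' * τ j x)) y ≤ ω) :
    Bq (nx m s u μ) τ y - 2 * ω ≤ Ax m s u (aq μ τ) y ^ 2 := by
  set ν := nx m s u μ with hν
  have pν : Pv ν := h.nx hl hB m s
  set N : ι → ι → ℝ := fun j l => mn ν (fun x => τ j x * τ l x) y with hN
  set M : ι → ι → ℝ := fun j l => Ax m s u (fun z => mn μ (τ j) z * mn μ (τ l) z) y with hM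
  have e1 : ∀ j l, N j l - M j l = Ax m s u (fun z => mn μ (fun x => τ j x * τ l x) z +
      -1 * (mn μ (τ j) z * mn μ (τ l) z)) y := by
    intro j l
    rw [Ax_add hl hB (h.eg_mn _) (((h.eg_mn _).mul (h.eg_mn _)).const_mul _), Ax_const_mul]
    simp only [hN, hM, hν]
    rw [mn_nx hl hB h]
    ring
  -- the cross term
  have e2 : ∑ j, ∑ l, (N j l - M j l) * N j l =
      ∑ x', ν y x' * Ax m s u (vr μ (fun x => ∑ j, τ j x' * τ j x)) y := by
    have a1 : ∀ x', Ax m s u (vr μ (fun x => ∑ j, τ j x' * τ j x)) y =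
        ∑ j, ∑ l, (τ j x' * τ l x') * (N j l - M j l) := by
      intro x'
      have : vr μ (fun x => ∑ j, τ j x' * τ j x) = fun z => ∑ j, ∑ l, (τ j x' * τ l x') *
          (mn μ (fun x => τ j x * τ l x) z + -1 * (mn μ (τ j) z * mn μ (τ l) z)) := by
        funext z
        exact vr_lin _ _ _
      rw [this, Ax_sum hl hB _ fun j _ => EG.sum _ fun l _ =>
        ((h.eg_mn _).add (((h.eg_mn _).mul (h.eg_mn _)).const_mul _)).const_mul _]
      refine Finset.sum_congr rfl fun j _ => ?_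
      rw [Ax_sum hl hB _ fun l _ =>
        ((h.eg_mn _).add (((h.eg_mn _).mul (h.eg_mn _)).const_mul _)).const_mul _]
      refine Finset.sum_congr rfl fun l _ => ?_
      rw [Ax_const_mul, e1]
    have a2 : ∀ j l, (N j l - M j l) * N j l =
        ∑ x', ν y x' * ((τ j x' * τ l x') * (N j l - M j l)) := by
      intro j l
      generalize hc : N j l - M j l = c
      have : N j l = ∑ x', ν y x' * (τ j x' * τ l x') := rfl
      rw [this, Finset.mul_sum]
      exact Finset.sum_congr rfl fun x' _ => by ring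
    have a3 : ∀ f : ι → ι → X → ℝ, ∑ j, ∑ l, ∑ x', f j l x' = ∑ x', ∑ j, ∑ l, f j l x' := by
      intro f
      calc ∑ j, ∑ l, ∑ x', f j l x' = ∑ j, ∑ x', ∑ l, f j l x' :=
            Finset.sum_congr rfl fun j _ => Finset.sum_comm
        _ = _ := Finset.sum_comm
    simp only [a1, a2, Finset.mul_sum]
    exact a3 fun j l x' => ν y x' * ((τ j x' * τ l x') * (N j l - M j l))
  have e3 : ∑ j, ∑ l, (N j l - M j l) * N j l ≤ ω := by
    rw [e2]
    calc ∑ x', ν y x' * Ax m s u (vr μ (fun x => ∑ j, τ j x' * τ j x)) y ≤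
        ∑ x', ν y x' * ω :=
          Finset.sum_le_sum fun x' _ => mul_le_mul_of_nonneg_left (hω x') (pν.nn y x')
      _ = ω := by rw [← Finset.sum_mul, pν.one, one_mul]
  have e4 : ∑ j, ∑ l, N j l ^ 2 - 2 * ω ≤ ∑ j, ∑ l, M j l ^ 2 := by
    have a1 : ∑ j, ∑ l, N j l ^ 2 - 2 * ∑ j, ∑ l, (N j l - M j l) * N j l =
        ∑ j, ∑ l, (M j l ^ 2 - (N j l - M j l) ^ 2) := by
      rw [Finset.mul_sum, ← Finset.sum_sub_distrib]
      refine Finset.sum_congr rfl fun j _ => ?_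
      rw [Finset.mul_sum, ← Finset.sum_sub_distrib]
      exact Finset.sum_congr rfl fun l _ => by ring
    have a2 : ∑ j, ∑ l, (M j l ^ 2 - (N j l - M j l) ^ 2) ≤ ∑ j, ∑ l, M j l ^ 2 :=
      Finset.sum_le_sum fun j _ => Finset.sum_le_sum fun l _ => by
        nlinarith [sq_nonneg (N j l - M j l)]
    linarith
  -- Cauchy-Schwarz
  set Q : ℝ := √(∑ j, ∑ l, M j l ^ 2) with hQ
  have hQ2 : Q ^ 2 = ∑ j, ∑ l, M j l ^ 2 := Real.sq_sqrt
    (Finset.sum_nonneg fun _ _ => Finset.sum_nonneg fun _ _ => sq_nonneg _)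
  have hQ0 : 0 ≤ Q := Real.sqrt_nonneg _
  have hA0 : 0 ≤ Ax m s u (aq μ τ) y := by
    rw [← Ax_const hl hB 0 m s y]
    exact Ax_mono hl hB (EG.const 0) (h.eg_aq τ) (fun z => aq_nonneg z) m s y
  have e5 : ∑ j, ∑ l, M j l ^ 2 ≤ Q * Ax m s u (aq μ τ) y := by
    have a1 : ∑ j, ∑ l, M j l ^ 2 =
        Ax m s u (fun z => ∑ j, ∑ l, M j l * (mn μ (τ j) z * mn μ (τ l) z)) y := by
      rw [Ax_sum hl hB _ fun j _ => EG.sum _ fun l _ =>
        ((h.eg_mn _).mul (h.eg_mn _)).const_mul _]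
      refine Finset.sum_congr rfl fun j _ => ?_
      rw [Ax_sum hl hB _ fun l _ => ((h.eg_mn _).mul (h.eg_mn _)).const_mul _]
      refine Finset.sum_congr rfl fun l _ => ?_
      rw [Ax_const_mul, sq]
    rw [a1, ← Ax_const_mul]
    refine Ax_mono hl hB (EG.sum _ fun j _ => EG.sum _ fun l _ =>
      ((h.eg_mn _).mul (h.eg_mn _)).const_mul _) ((h.eg_aq τ).const_mul _) (fun z => ?_) m s y
    have c1 := Finset.sum_mul_sq_le_sq_mul_sq (Finset.univ : Finset (ι × ι))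
      (fun p => M p.1 p.2) (fun p => mn μ (τ p.1) z * mn μ (τ p.2) z)
    have c2 : ∑ p : ι × ι, M p.1 p.2 * (mn μ (τ p.1) z * mn μ (τ p.2) z) =
        ∑ j, ∑ l, M j l * (mn μ (τ j) z * mn μ (τ l) z) := Fintype.sum_prod_type _
    have c3 : ∑ p : ι × ι, M p.1 p.2 ^ 2 = Q ^ 2 := by
      rw [hQ2, Fintype.sum_prod_type]
    have c4 : ∑ p : ι × ι, (mn μ (τ p.1) z * mn μ (τ p.2) z) ^ 2 = aq μ τ z ^ 2 := by
      rw [Fintype.sum_prod_type]
      unfold aq
      rw [sq (∑ j, mn μ (τ j) z ^ 2), Finset.sum_mul_sum]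
      exact Finset.sum_congr rfl fun j _ => Finset.sum_congr rfl fun l _ => by
        simp only []
        ring
    rw [c2, c3, c4, ← mul_pow] at c1
    exact abs_le_of_sq_le_sq' c1 (mul_nonneg hQ0 (aq_nonneg z)) |>.2
  have e6 : Q ≤ Ax m s u (aq μ τ) y := by
    rw [← hQ2] at e5
    by_contra hc
    push Not at hc
    have hQp : 0 < Q := lt_of_le_of_lt hA0 hc
    nlinarith
  have e7 : Q ^ 2 ≤ Ax m s u (aq μ τ) y ^ 2 := by
    exact pow_le_pow_left₀ hQ0 e6 2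
  have e8 : Bq ν τ y = ∑ j, ∑ l, N j l ^ 2 := rfl
  rw [e8]
  linarith

/-- a real inequality -/
lemma real_lock {a b q ω : ℝ} (ha : 0 ≤ a) (hb : 0 ≤ b) (hq : 0 ≤ q) (hω : 0 ≤ ω)
    (h : b ^ 2 - 2 * ω ≤ a ^ 2) : b ^ 2 + q ^ 2 - 2 * q * a ≤ 2 * (b - q) ^ 2 + 6 * ω := by
  by_cases hc : b ^ 2 ≤ 2 * ω
  · nlinarith [sq_nonneg (q - 2 * b), mul_nonneg hq ha]
  · push Not at hc
    have hb0 : 0 < b := by
      rcases hb.lt_or_eq with h | h
      · exact h
      · rw [← h] at hc; nlinarith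
    have h1 : b ^ 2 - 2 * ω ≤ a * b := by
      by_cases hab : a ≤ b
      · nlinarith
      · push Not at hab
        nlinarith
    -- multiply by `b`
    have h2 : 0 ≤ (2 * (b - q) ^ 2 + 6 * ω - (b ^ 2 + q ^ 2 - 2 * q * a)) * b ^ 2 := by
      have h3 : (b ^ 2 - 2 * ω) * (q * b) ≤ a * b * (q * b) :=
        mul_le_mul_of_nonneg_right h1 (mul_nonneg hq hb)
      nlinarith [sq_nonneg (q - 2 * b), mul_nonneg (sq_nonneg (b - q)) (sub_nonneg.2 hc.le),
        mul_nonneg hω (sq_nonneg (q - 2 * b)), mul_nonneg hω (sq_nonneg b)]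
    by_contra hn
    push Not at hn
    have : 0 < b ^ 2 := by positivity
    nlinarith

/-- **The pair one layer below is locked.** -/
theorem one_pair (h : Pv μ) (m s : ℝ) (y : κ → ℝ) (hq : 0 ≤ q) (hω0 : 0 ≤ ω)
    (hω : ∀ x', Ax m s u (vr μ (fun x => ∑ j, τ j x' * τ j x)) y ≤ ω) :
    Ax m s u (pm μ (fun x x' => (∑ j, τ j x * τ j x' - q) ^ 2)) y ≤
      2 * (√(Bq (nx m s u μ) τ y) - q) ^ 2 +
        (Ax m s u (Bq μ τ) y - Bq (nx m s u μ) τ y) + 6 * ω := by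
  have e1 : pm μ (fun x x' => (∑ j, τ j x * τ j x' - q) ^ 2) =
      fun z => (Bq μ τ z + (-(2 * q)) * aq μ τ z) + q ^ 2 := by
    funext z
    exact h.pm_dev τ q z
  rw [e1, Ax_add hl hB ((h.eg_Bq τ).add ((h.eg_aq τ).const_mul _)) (EG.const _),
    Ax_add hl hB (h.eg_Bq τ) ((h.eg_aq τ).const_mul _), Ax_const_mul, Ax_const hl hB]
  have hA0 : 0 ≤ Ax m s u (aq μ τ) y := by
    rw [← Ax_const hl hB 0 m s y]
    exact Ax_mono hl hB (EG.const 0) (h.eg_aq τ) (fun z => aq_nonneg z) m s y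
  have hb0 := Real.sqrt_nonneg (Bq (nx m s u μ) τ y)
  have hb2 := Real.sq_sqrt (Bq_nonneg (μ := nx m s u μ) (τ := τ) y)
  have h1 := lock hl hB (τ := τ) h m s y hω
  rw [← hb2] at h1
  have h2 := real_lock hl hB hA0 hb0 hq hω0 h1
  rw [hb2] at h2
  linarith

end layer

/-! ### the conditional variance of the overlap -/

/-- **The conditional variance of the signed overlap.** `V` is the normalized projection of the
configuration on the direction, `sg` its sign. -/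
theorem Lev.om (h : Lev k η S B u D H μ) (hη : 0 < η) (hk : k ≠ 0) (hm0 : 0 < m)
    (hs : s ≠ 0) {g : ι → X → ℝ} {sg V : X → ℝ} {Ca : ℝ}
    (hsg : ∀ x, sg x ^ 2 = 1) (hV : ∀ x, (sg x - V x) ^ 2 ≤ (V x ^ 2 - 1) ^ 2)
    (hR : ∀ x x', (∑ j, g j x * g j x') ^ 2 ≤ 1)
    (hlin : ∀ x', ∃ (a : κ → ℝ) (c : ℝ),
      (∀ x, V x * ∑ j, g j x * g j x' = ∑ e, a e * S e x + c) ∧ ∑ e, a e ^ 2 ≤ Ca)
    (y : κ → ℝ) (x' : X) :
    Ax m s u (vr μ (fun x => ∑ j, (sg x' * g j x') * (sg x * g j x))) y ≤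
      2 * (Ca / (η * m * s ^ 2 * k ^ 2)) +
        2 * mn (nx m s u μ) (fun x => (V x ^ 2 - 1) ^ 2) y := by
  obtain ⟨L, B2, c2⟩ := h.c2
  have hl := c2.c1.lip
  have hB := c2.c1.B0
  obtain ⟨a, c, ha, hC⟩ := hlin x'
  have hpos : 0 < η * m * s ^ 2 * k ^ 2 := by positivity
  have h1 : ∀ z, vr μ (fun x => ∑ j, (sg x' * g j x') * (sg x * g j x)) z ≤
      2 * vr μ (fun x => ∑ e, a e * S e x) z +
        2 * mn μ (fun x => (V x ^ 2 - 1) ^ 2) z := by
    intro z
    have e1 : (fun x => ∑ j, (sg x' * g j x') * (sg x * g j x)) =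
        fun x => sg x' * (sg x * ∑ j, g j x * g j x') := by
      funext x
      rw [Finset.mul_sum, Finset.mul_sum]
      exact Finset.sum_congr rfl fun j _ => by ring
    have e2 : (fun x => sg x * ∑ j, g j x * g j x') =
        fun x => (∑ e, a e * S e x + c) + (sg x - V x) * ∑ j, g j x * g j x' := by
      funext x
      rw [← ha x]
      ring
    rw [e1, vr_const_mul, hsg, one_mul, e2]
    refine (h.pv.vr_add_le _ _ z).trans ?_
    rw [h.pv.vr_add_const]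
    have e3 : mn μ (fun x => ((sg x - V x) * ∑ j, g j x * g j x') ^ 2) z ≤
        mn μ (fun x => (V x ^ 2 - 1) ^ 2) z := by
      refine h.pv.mn_mono (fun x => ?_) z
      rw [mul_pow]
      calc (sg x - V x) ^ 2 * (∑ j, g j x * g j x') ^ 2 ≤ (sg x - V x) ^ 2 * 1 :=
            mul_le_mul_of_nonneg_left (hR x x') (sq_nonneg _)
        _ ≤ _ := by rw [mul_one]; exact hV x
    linarith
  have h2 := Ax_mono hl hB (h.pv.eg_vr _) (((h.pv.eg_vr (fun x => ∑ e, a e * S e x)).const_mul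
    2).add ((h.pv.eg_mn _).const_mul 2)) h1 m s y
  refine h2.trans ?_
  rw [Ax_add hl hB ((h.pv.eg_vr _).const_mul 2) ((h.pv.eg_mn _).const_mul 2), Ax_const_mul,
    Ax_const_mul, mn_nx hl hB h.pv]
  have h3 := h.riccati hη hk hm0 hs a y
  have h4 : (∑ e, a e ^ 2) / (η * m * s ^ 2 * k ^ 2) ≤ Ca / (η * m * s ^ 2 * k ^ 2) :=
    div_le_div_of_nonneg_right hC hpos.le
  linarith

end Vale.Agent.P146.H327
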