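import Vale.Agent.P146.H327.Deep3
import Vale.Agent.P146.H941.DeepR
import Vale.Agent.P146.H713.Deep
import Vale.Agent.P146.H785.Grid
import Vale.Agent.P146.H785.PairD

/-!
Deep layers of the free energy, part 4: the pairs of replicas of the deep functional. For a pair
with the `i` inner layers separate the signed overlap is close to the square root of the mean
squared overlap of the pairs with `i + 1` separate layers, at every position.
-/

open MeasureTheory ProbabilityTheory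

namespace Vale.Agent.P146.H327

open Vale.Agent.P157.Lv Vale.Agent.P146.H425 Vale.Agent.P146.H785
open Vale.Agent.P146.R1 (FD TD KD FD_zero FD_succ TD_zero TD_succ eg_Ax c11_FD TD_mono TD_add
  TD_const_mul TD_const TD_nonneg eg_TD pairD)
open Vale.Agent.P146.H941 (Rt rt_FD)

set_option linter.unusedSectionVars false

variable {κ : Type} [Fintype κ] {X : Type} [Fintype X] {ι : Type} [Fintype ι]
  {F : (κ → ℝ) → ℝ} {D : κ → (κ → ℝ) → ℝ} {H : κ → κ → (κ → ℝ) → ℝ}
  {mu : (κ → ℝ) → X → ℝ} {S : κ → X → ℝ} {τ : ι → X → ℝ} {B L B2 k q : ℝ} {m σ : ℕ → ℝ}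
  {i j J : ℕ} {φ ψ : (κ → ℝ) → ℝ}

/-! ### the outer layers -/

/-- The mean over `j` layers from the layer `i` on. -/
noncomputable def TO (F : (κ → ℝ) → ℝ) (m σ : ℕ → ℝ) (i j : ℕ) (φ : (κ → ℝ) → ℝ) :
    (κ → ℝ) → ℝ :=
  TD (FD F m σ i) (fun t => m (i + t)) (fun t => σ (i + t)) φ j

lemma TO_zero : TO F m σ i 0 φ = φ := rfl

lemma TO_peel : TO F m σ i (j + 1) φ =
    TO F m σ (i + 1) j (Ax (m i) (σ i) (FD F m σ i) φ) := by
  unfold TO
  rw [Nat.add_comm j 1, TD_shift]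
  have e1 : (fun t => m (i + (1 + t))) = fun t => m (i + 1 + t) := by
    funext t; rw [Nat.add_assoc]
  have e2 : (fun t => σ (i + (1 + t))) = fun t => σ (i + 1 + t) := by
    funext t; rw [Nat.add_assoc]
  rw [e1, e2]
  rfl

lemma TO_TD : TO F m σ i j (TD F m σ φ i) = TD F m σ φ (i + j) := (TD_shift F m σ φ i j).symm

section outer
variable (h : C11 F D B L) (hm : ∀ t < J, 0 < m t)
include h hm

lemma TO_mono (hij : i + j ≤ J) (hφ : EG φ) (hψ : EG ψ) (hle : ∀ u, φ u ≤ ψ u) (y : κ → ℝ) :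
    TO F m σ i j φ y ≤ TO F m σ i j ψ y :=
  TD_mono (c11_FD h i fun t ht => hm t (by omega)) hφ hψ hle j
    (fun t ht => hm (i + t) (by omega)) y

lemma TO_add (hij : i + j ≤ J) (hφ : EG φ) (hψ : EG ψ) (y : κ → ℝ) :
    TO F m σ i j (fun z => φ z + ψ z) y = TO F m σ i j φ y + TO F m σ i j ψ y :=
  congrFun (TD_add (c11_FD h i fun t ht => hm t (by omega)) hφ hψ j
    (fun t ht => hm (i + t) (by omega))) y

lemma TO_const (hij : i + j ≤ J) (c : ℝ) (y : κ → ℝ) : TO F m σ i j (fun _ => c) y = c :=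
  congrFun (TD_const (c11_FD h i fun t ht => hm t (by omega)) c j
    (fun t ht => hm (i + t) (by omega))) y

lemma eg_TO (hij : i + j ≤ J) (hφ : EG φ) : EG (TO F m σ i j φ) :=
  eg_TD (c11_FD h i fun t ht => hm t (by omega)) hφ j (fun t ht => hm (i + t) (by omega))

end outer

lemma TO_const_mul (c : ℝ) (φ : (κ → ℝ) → ℝ) (y : κ → ℝ) :
    TO F m σ i j (fun z => c * φ z) y = c * TO F m σ i j φ y :=
  congrFun (TD_const_mul c φ j) y

/-! ### the levels -/

/-- The root law with `i` layers. -/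
noncomputable def lw (F : (κ → ℝ) → ℝ) (mu : (κ → ℝ) → X → ℝ) (m σ : ℕ → ℝ) (i : ℕ) (z : κ → ℝ)
    (x : X) : ℝ := TD F m σ (fun u => mu u x) i z

lemma nx_lw : nx (m i) (σ i) (FD F m σ i) (lw F mu m σ i) = lw F mu m σ (i + 1) := rfl

lemma pairD_eq (ψ : X → X → ℝ) : pairD F (fun x u => mu u x) m σ J i ψ =
    TO F m σ i (J - i) (pm (lw F mu m σ i) ψ) := rfl

section levels

variable [DecidableEq κ] {x : ℝ}

lemma Lev.of_rt {η : ℝ} (h : Rt k η S F D H mu B L B2) : Lev k η S B F D H mu where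
  c2 := ⟨L, B2, h.c2⟩
  pv := ⟨h.m0, h.m1, h.meas⟩
  gr e y := h.dm e y
  gap a y := by
    have h1 := h.kov y a
    have h2 : ∑ e, D e y * a e = k * mn mu (fun x => ∑ e, a e * S e x) y := by
      rw [mn_sum, Finset.mul_sum]
      refine Finset.sum_congr rfl fun e _ => ?_
      rw [mn_const_mul, h.dm]
      unfold mn
      ring
    have h3 : k ^ 2 * vr mu (fun x => ∑ e, a e * S e x) y =
        k ^ 2 * ∑ σ, mu y σ * (∑ e, S e σ * a e) ^ 2 - (∑ e, D e y * a e) ^ 2 := by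
      rw [h2]
      unfold vr
      have : mn mu (fun x => (∑ e, a e * S e x) ^ 2) y =
          ∑ σ, mu y σ * (∑ e, S e σ * a e) ^ 2 := by
        have e : ∀ x, ∑ e, a e * S e x = ∑ e, S e x * a e := fun x =>
          Finset.sum_congr rfl fun e _ => mul_comm (a e) (S e x)
        unfold mn
        exact Finset.sum_congr rfl fun x _ => by simp only [e]
      rw [this]
      ring
    rw [h3]
    exact h1

/-- The levels of the deep functional. -/
theorem lev_FD (h : Rt k 1 S F D H mu B L B2) (hE : R1.Exs m J x) (hi : i ≤ J) :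
    Lev k (R1.mp m i) S B (FD F m σ i) (fun a => TD F m σ (D a) i)
      (fun a b => KD F m σ (H a b) (D a) (D b) i) (lw F mu m σ i) := by
  obtain ⟨L', B2', h1⟩ := rt_FD (σ := σ) h (e := R1.mp m) rfl (fun _ => rfl)
    (fun i hi => hE.pos i hi) (fun i hi => hE.step i hi) i hi
  exact Lev.of_rt h1

lemma mn_lw (h : C11 F D B L) (hp : Pv mu) (hm : ∀ t < i, 0 < m t) (f : X → ℝ) :
    mn (lw F mu m σ i) f = TD F m σ (mn mu f) i := by
  have h1 := R1.TD_lin (σ := σ) h Finset.univ f (φ := fun x u => mu u x) (fun x _ => hp.eg x) i hm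
  have e : mn mu f = fun u => ∑ x, f x * mu u x := by
    funext u
    exact Finset.sum_congr rfl fun x _ => mul_comm _ _
  rw [e, h1]
  funext y
  exact Finset.sum_congr rfl fun x _ => mul_comm _ _

lemma mp_pos (hE : R1.Exs m J x) (hi : i ≤ J) : 0 < R1.mp m i := by
  cases i with
  | zero => exact one_pos
  | succ i => exact hE.pos i (by omega)

/-- the mean squared overlap of the pairs with `i` separate layers -/
noncomputable def bb (F : (κ → ℝ) → ℝ) (mu : (κ → ℝ) → X → ℝ) (m σ : ℕ → ℝ) (J : ℕ)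
    (τ : ι → X → ℝ) (i : ℕ) : (κ → ℝ) → ℝ :=
  TO F m σ i (J - i) (Bq (lw F mu m σ i) τ)

/-- **The pairs of replicas of the deep functional.** -/
theorem pairD_le (h : Rt k 1 S F D H mu B L B2) (hE : R1.Exs m J x) (hi : i < J) (hk : k ≠ 0)
    (hs : σ i ≠ 0) (hq : 0 ≤ q) {g : ι → X → ℝ} {sg V : X → ℝ} {Ca : ℝ} (hCa : 0 ≤ Ca)
    (hsg : ∀ x, sg x ^ 2 = 1) (hV : ∀ x, (sg x - V x) ^ 2 ≤ (V x ^ 2 - 1) ^ 2)
    (hR : ∀ x x', (∑ j, g j x * g j x') ^ 2 ≤ 1)
    (hlin : ∀ x', ∃ (a : κ → ℝ) (c : ℝ),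
      (∀ x, V x * ∑ j, g j x * g j x' = ∑ e, a e * S e x + c) ∧ ∑ e, a e ^ 2 ≤ Ca)
    (z : κ → ℝ) :
    pairD F (fun x u => mu u x) m σ J i
        (fun x x' => (sg x * sg x' * ∑ j, g j x * g j x' - q) ^ 2) z ≤
      2 * TO F m σ (i + 1) (J - (i + 1))
          (fun w => (√(Bq (lw F mu m σ (i + 1)) g w) - q) ^ 2) z +
        (bb F mu m σ J g i z - bb F mu m σ J g (i + 1) z) +
        12 * (Ca / (R1.mp m i * m i * σ i ^ 2 * k ^ 2) +
          mn (lw F mu m σ J) (fun x => (V x ^ 2 - 1) ^ 2) z) := by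
  have lv := lev_FD (σ := σ) h hE hi.le
  have lv1 := lev_FD (σ := σ) h hE (i := i + 1) (by omega)
  obtain ⟨L', B2', c2⟩ := lv.c2
  have c11 := h.c2.c1
  have hmp : ∀ t < J, 0 < m t := fun t ht => hE.pos t ht
  have hl := c2.c1.lip
  have hB := c2.c1.B0
  have hp := lv.pv
  have hp1 := lv1.pv
  set ν := lw F mu m σ i with hν
  set ν1 := lw F mu m σ (i + 1) with hν1
  have hη := mp_pos hE hi.le
  have hm0 := hE.pos i hi
  set τ : ι → X → ℝ := fun j x => sg x * g j x with hτ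
  set c0 : ℝ := Ca / (R1.mp m i * m i * σ i ^ 2 * k ^ 2) with hc0
  have hc00 : 0 ≤ c0 := by
    rw [hc0]
    have : 0 < R1.mp m i * m i * σ i ^ 2 * k ^ 2 := by positivity
    exact div_nonneg hCa this.le
  set f : X → ℝ := fun x => (V x ^ 2 - 1) ^ 2 with hf
  have hτ2 : ∀ (ρ : (κ → ℝ) → X → ℝ) (w : κ → ℝ), Bq ρ τ w = Bq ρ g w := by
    intro ρ w
    refine Bq_congr (fun j l x => ?_) w
    simp only [hτ]
    have := hsg x
    calc sg x * g j x * (sg x * g l x) = sg x ^ 2 * (g j x * g l x) := by ring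
      _ = _ := by rw [this, one_mul]
  have e0 : (fun x x' => (sg x * sg x' * ∑ j, g j x * g j x' - q) ^ 2) =
      fun x x' => (∑ j, τ j x * τ j x' - q) ^ 2 := by
    funext x x'
    have : sg x * sg x' * ∑ j, g j x * g j x' = ∑ j, τ j x * τ j x' := by
      rw [Finset.mul_sum]
      exact Finset.sum_congr rfl fun j _ => by simp only [hτ]; ring
    rw [this]
  rw [e0, pairD_eq]
  obtain ⟨j, hj⟩ : ∃ j, J - i = j + 1 := ⟨J - i - 1, by omega⟩
  have hj' : J - (i + 1) = j := by omega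
  have hij : i + (j + 1) ≤ J := by omega
  have hij' : i + 1 + j ≤ J := by omega
  have hJ : i + 1 + j = J := by omega
  unfold bb
  rw [hj, hj', TO_peel, TO_peel]
  -- the pointwise bound
  have hpt : ∀ w, Ax (m i) (σ i) (FD F m σ i)
      (pm ν fun x x' => (∑ j, τ j x * τ j x' - q) ^ 2) w ≤
      (2 * (√(Bq ν1 g w) - q) ^ 2 + (Ax (m i) (σ i) (FD F m σ i) (Bq ν g) w +
        -1 * Bq ν1 g w)) + (12 * c0 + 12 * mn ν1 f w) := by
    intro w
    have hom : ∀ x', Ax (m i) (σ i) (FD F m σ i) (vr ν fun x => ∑ j, τ j x' * τ j x) w ≤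
        2 * c0 + 2 * mn ν1 f w := fun x' =>
      lv.om hη hk hm0 hs hsg hV hR hlin w x'
    have h0 : 0 ≤ 2 * c0 + 2 * mn ν1 f w := by
      have := hp1.mn_nonneg (f := f) (fun x => sq_nonneg _) w
      positivity
    have h1 := one_pair hl hB (τ := τ) hp (m i) (σ i) w hq h0 hom
    have e2 : Bq ν τ = Bq ν g := funext fun w => hτ2 ν w
    have e3 : Bq (nx (m i) (σ i) (FD F m σ i) ν) τ w = Bq ν1 g w := hτ2 _ w
    rw [e2, e3] at h1
    linarith
  -- integrability
  have eP : EG (Ax (m i) (σ i) (FD F m σ i)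
      (pm ν fun x x' => (∑ j, τ j x * τ j x' - q) ^ 2)) := eg_Ax c2.c1 (hp.eg_pm _) _ _
  have eB : EG (Ax (m i) (σ i) (FD F m σ i) (Bq ν g)) := eg_Ax c2.c1 (hp.eg_Bq _) _ _
  have eB1 : EG (Bq ν1 g) := hp1.eg_Bq g
  have eS : EG fun w => (√(Bq ν1 g w) - q) ^ 2 := by
    refine ((eB1.const_mul 2).add (EG.const (2 * q ^ 2))).mono
      ((eB1.meas.sqrt.sub measurable_const).pow_const 2) fun w => ?_
    have h1 := Bq_nonneg (μ := ν1) (τ := g) w
    have h2 := Real.sq_sqrt h1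
    rw [abs_of_nonneg (sq_nonneg _), abs_of_nonneg (by positivity)]
    nlinarith [sq_nonneg (√(Bq ν1 g w) + q)]
  have eM : EG (mn ν1 f) := hp1.eg_mn f
  have h2 := TO_mono (σ := σ) c11 hmp hij' eP (((eS.const_mul 2).add
    (eB.add (eB1.const_mul (-1)))).add ((EG.const (12 * c0)).add (eM.const_mul 12))) hpt z
  refine h2.trans (le_of_eq ?_)
  rw [TO_add c11 hmp hij' ((eS.const_mul 2).add (eB.add (eB1.const_mul (-1))))
      ((EG.const (12 * c0)).add (eM.const_mul 12)),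
    TO_add c11 hmp hij' (eS.const_mul 2) (eB.add (eB1.const_mul (-1))),
    TO_add c11 hmp hij' eB (eB1.const_mul (-1)), TO_add c11 hmp hij' (EG.const _)
      (eM.const_mul 12), TO_const c11 hmp hij', TO_const_mul, TO_const_mul, TO_const_mul]
  have e4 : TO F m σ (i + 1) j (mn ν1 f) z = mn (lw F mu m σ J) f z := by
    have hp0 : Pv mu := (lev_FD (σ := σ) h hE (i := 0) (Nat.zero_le _)).pv
    rw [hν1, mn_lw c11 hp0 (fun t ht => hmp t (by omega)), TO_TD, hJ, mn_lw c11 hp0 hmp]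
  rw [e4]
  ring

end levels

end Vale.Agent.P146.H327
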