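import Vale.Agent.P146.H327.Deep4

/-!
Deep layers of the free energy, part 5: the pairs of replicas for the system without the row `b`.
-/

open MeasureTheory ProbabilityTheory

namespace Vale.Agent.P146.H327

open Vale.Agent.P157.Lv Vale.Agent.P146.H425 Vale.Agent.P146.H785 Vale.Agent.P146.H325
open Vale.Agent.P146.H332 (sum_pairs)
open Vale.Agent.P146.R1 (FD TD pairD)
open Vale.Agent.P146.H941 (gm rt_lz)

set_option linter.unusedSectionVars false

variable {n : ℕ} {b : Fin n} {v : Fin n → ℝ} {Λ k q x : ℝ} {m σ : ℕ → ℝ} {i J : ℕ}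

/-- the interactions without the row `b` -/
def Sb (b : Fin n) (e : Pair n) (σ : Fin n → ℤˣ) : ℝ := if e ∈ row b then 0 else SkS e σ

/-- the scaled spins without the site `b` -/
noncomputable def gb (b : Fin n) (j : Fin n) (σ : Fin n → ℤˣ) : ℝ :=
  if j = b then 0 else sp σ j / √n

/-- the overlap without the site `b` -/
noncomputable def Rb (b : Fin n) (σ σ' : Fin n → ℤˣ) : ℝ :=
  (∑ j, if j = b then 0 else sp σ j * sp σ' j) / n

/-- the normalized projection -/
noncomputable def Vb (v : Fin n → ℝ) (Λ : ℝ) (σ : Fin n → ℤˣ) : ℝ := (∑ j, v j * sp σ j) / √Λ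

/-- the sign -/
noncomputable def sgb (v : Fin n → ℝ) (σ : Fin n → ℤˣ) : ℝ := if 0 ≤ ∑ j, v j * sp σ j then 1 else -1

lemma sgb_sq (σ : Fin n → ℤˣ) : sgb v σ ^ 2 = 1 := by
  unfold sgb
  split_ifs <;> norm_num

lemma sgb_Vb (hΛ : 0 < Λ) (σ : Fin n → ℤˣ) :
    (sgb v σ - Vb v Λ σ) ^ 2 ≤ (Vb v Λ σ ^ 2 - 1) ^ 2 := by
  have hs : 0 < √Λ := Real.sqrt_pos.2 hΛ
  have h1 : 0 ≤ sgb v σ * Vb v Λ σ := by
    unfold sgb Vb
    split_ifs with h
    · rw [one_mul]; exact div_nonneg h hs.le
    · push Not at h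
      have : (∑ j, v j * sp σ j) / √Λ ≤ 0 := div_nonpos_of_nonpos_of_nonneg h.le hs.le
      linarith
  have h2 := sgb_sq (v := v) σ
  set s := sgb v σ
  set V := Vb v Λ σ
  have e : (V ^ 2 - 1) ^ 2 = (s - V) ^ 2 * (s + V) ^ 2 := by
    rw [← h2]; ring
  rw [e]
  have h3 : 1 ≤ (s + V) ^ 2 := by nlinarith [sq_nonneg V]
  nlinarith [sq_nonneg (s - V)]

lemma sum_gb (hn : 0 < n) (σ σ' : Fin n → ℤˣ) : ∑ j, gb b j σ * gb b j σ' = Rb b σ σ' := by
  unfold gb Rb
  rw [Finset.sum_div]
  refine Finset.sum_congr rfl fun j _ => ?_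
  have hn' : (0 : ℝ) < n := by exact_mod_cast hn
  have hs : √(n : ℝ) * √n = n := Real.mul_self_sqrt hn'.le
  split_ifs
  · simp
  · rw [div_mul_div_comm, hs]

lemma abs_Rb (hn : 0 < n) (σ σ' : Fin n → ℤˣ) : |Rb b σ σ'| ≤ 1 := by
  have hn' : (0 : ℝ) < n := by exact_mod_cast hn
  unfold Rb
  rw [abs_div, abs_of_pos hn', div_le_one hn']
  refine (Finset.abs_sum_le_sum_abs _ _).trans ?_
  calc ∑ j, |if j = b then 0 else sp σ j * sp σ' j| ≤ ∑ _j : Fin n, (1 : ℝ) := by
        refine Finset.sum_le_sum fun j _ => ?_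
        split_ifs
        · simp
        · rw [abs_mul, abs_sp, abs_sp, one_mul]
    _ = n := by simp

lemma sum_gb_sq_le (hn : 0 < n) (σ σ' : Fin n → ℤˣ) :
    (∑ j, gb b j σ * gb b j σ') ^ 2 ≤ 1 := by
  rw [sum_gb hn]
  have := abs_Rb (b := b) hn σ σ'
  rw [sq_le_one_iff_abs_le_one]
  exact this

/-- the product with the projection is a linear combination of interactions -/
lemma lin_b (hn : 0 < n) (hv : ∑ j, v j ^ 2 = 1) (hvb : v b = 0) (hΛ : 0 < Λ)
    (σ' : Fin n → ℤˣ) : ∃ (a : Pair n → ℝ) (c : ℝ),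
      (∀ σ, Vb v Λ σ * ∑ j, gb b j σ * gb b j σ' = ∑ e, a e * Sb b e σ + c) ∧
        ∑ e, a e ^ 2 ≤ 2 / (n * Λ) := by
  have hn' : (0 : ℝ) < n := by exact_mod_cast hn
  have hs : 0 < √Λ := Real.sqrt_pos.2 hΛ
  refine ⟨fun e => (v e.1.1 * sp σ' e.1.2 + v e.1.2 * sp σ' e.1.1) / (n * √Λ),
    (∑ j, v j * sp σ' j) / (n * √Λ), fun σ => ?_, ?_⟩
  · rw [sum_gb hn]
    unfold Vb Rb
    have e1 : (∑ j, v j * sp σ j) * ∑ j, (if j = b then 0 else sp σ j * sp σ' j) =
        ∑ e : Pair n, (v e.1.1 * sp σ' e.1.2 + v e.1.2 * sp σ' e.1.1) * Sb b e σ +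
          ∑ j, v j * sp σ' j := by
      set G : Fin n → Fin n → ℝ := fun p r => if p = r then 0 else if p = b ∨ r = b then 0 else
        (v p * sp σ' r + v r * sp σ' p) * (sp σ p * sp σ r) with hG
      have g1 := sum_pairs G (fun p r => by
        simp only [hG]
        by_cases h : p = r
        · rw [if_pos h, if_pos h.symm]
        · rw [if_neg h, if_neg (Ne.symm h)]
          by_cases h' : p = b ∨ r = b
          · rw [if_pos h', if_pos (Or.symm h')]
          · rw [if_neg h', if_neg fun h'' => h' (Or.symm h'')]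
            ring) (fun p => by simp [hG])
      have g2 : ∀ e : Pair n, G e.1.1 e.1.2 =
          (v e.1.1 * sp σ' e.1.2 + v e.1.2 * sp σ' e.1.1) * Sb b e σ := by
        intro e
        have hne : e.1.1 ≠ e.1.2 := e.2.ne
        simp only [hG, if_neg hne]
        unfold Sb
        by_cases h' : e.1.1 = b ∨ e.1.2 = b
        · rw [if_pos h', if_pos (mem_row.2 h'), mul_zero]
        · rw [if_neg h', if_neg fun h'' => h' (mem_row.1 h'')]
          rfl
      simp only [g2] at g1
      have g3 : (∑ j, v j * sp σ j) * ∑ j, (if j = b then 0 else sp σ j * sp σ' j) =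
          ∑ p, ∑ r, (v p * sp σ p) * (if r = b then 0 else sp σ r * sp σ' r) :=
        Finset.sum_mul_sum _ _ _ _
      have g4 : ∑ p, ∑ r, (v p * sp σ p) * (if r = b then 0 else sp σ r * sp σ' r) =
          ∑ p, ∑ r, (v r * sp σ r) * (if p = b then 0 else sp σ p * sp σ' p) := by
        rw [Finset.sum_comm]
      have g5 : 2 * ((∑ j, v j * sp σ j) * ∑ j, (if j = b then 0 else sp σ j * sp σ' j)) =
          ∑ p, ∑ r, G p r + 2 * ∑ j, v j * sp σ' j := by
        have a1 : ∑ p, ∑ r, (if p = r then 2 * (v p * sp σ' p) else 0) =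
            2 * ∑ j, v j * sp σ' j := by
          rw [Finset.mul_sum]
          refine Finset.sum_congr rfl fun p _ => ?_
          simp
        have a2 : 2 * ((∑ j, v j * sp σ j) * ∑ j, (if j = b then 0 else sp σ j * sp σ' j)) =
            ∑ p, ∑ r, (v p * sp σ p) * (if r = b then 0 else sp σ r * sp σ' r) +
            ∑ p, ∑ r, (v r * sp σ r) * (if p = b then 0 else sp σ p * sp σ' p) := by
          rw [← g4, ← g3]; ring
        rw [a2, ← a1, ← Finset.sum_add_distrib, ← Finset.sum_add_distrib]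
        refine Finset.sum_congr rfl fun p _ => ?_
        rw [← Finset.sum_add_distrib, ← Finset.sum_add_distrib]
        refine Finset.sum_congr rfl fun r _ => ?_
        simp only [hG]
        by_cases h : p = r
        · subst h
          rw [if_pos rfl, if_pos rfl]
          by_cases h' : p = b
          · rw [if_pos h', h', hvb]; ring
          · rw [if_neg h']
            have := sp_mul_self σ p
            linear_combination (2 * v p * sp σ' p) * this
        · rw [if_neg h, if_neg h]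
          by_cases h1 : p = b
          · rw [if_pos (Or.inl h1), if_pos h1, h1, hvb]; ring
          · by_cases h2 : r = b
            · rw [if_pos (Or.inr h2), if_neg h1, if_pos h2, h2, hvb]; ring
            · rw [if_neg (not_or.2 ⟨h1, h2⟩), if_neg h1, if_neg h2]; ring
      linarith
    have e2 : (∑ j, v j * sp σ j) / √Λ * ((∑ j, (if j = b then 0 else sp σ j * sp σ' j)) / n) =
        ((∑ j, v j * sp σ j) * ∑ j, (if j = b then 0 else sp σ j * sp σ' j)) / (n * √Λ) := by
      field_simp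
    rw [e2, e1, add_div, Finset.sum_div]
    congr 1
    exact Finset.sum_congr rfl fun e _ => by ring
  · have h1 : ∀ e : Pair n, ((v e.1.1 * sp σ' e.1.2 + v e.1.2 * sp σ' e.1.1) / (n * √Λ)) ^ 2 ≤
        2 / (n ^ 2 * Λ) * (if (e.1.1 : Fin n) = e.1.2 then 0 else v e.1.1 ^ 2 + v e.1.2 ^ 2) := by
      intro e
      rw [if_neg e.2.ne, div_pow, mul_pow, Real.sq_sqrt hΛ.le, div_mul_eq_mul_div]
      refine div_le_div_of_nonneg_right ?_ (by positivity)
      have a1 := sp_sq σ' e.1.2
      have a2 := sp_sq σ' e.1.1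
      nlinarith [sq_nonneg (v e.1.1 * sp σ' e.1.2 - v e.1.2 * sp σ' e.1.1)]
    refine (Finset.sum_le_sum fun e _ => h1 e).trans ?_
    rw [← Finset.mul_sum]
    have g1 := sum_pairs (fun p r : Fin n => if p = r then 0 else v p ^ 2 + v r ^ 2)
      (fun p r => by
        by_cases h : p = r
        · rw [if_pos h, if_pos h.symm]
        · rw [if_neg h, if_neg (Ne.symm h), add_comm]) (fun p => by simp)
    have g2 : ∑ p : Fin n, ∑ r : Fin n, (if p = r then 0 else v p ^ 2 + v r ^ 2) ≤ 2 * n := by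
      calc ∑ p : Fin n, ∑ r : Fin n, (if p = r then 0 else v p ^ 2 + v r ^ 2) ≤
          ∑ p : Fin n, ∑ r : Fin n, (v p ^ 2 + v r ^ 2) := by
            refine Finset.sum_le_sum fun p _ => Finset.sum_le_sum fun r _ => ?_
            split_ifs
            · positivity
            · exact le_rfl
        _ = 2 * n := by
          simp only [Finset.sum_add_distrib, Finset.sum_const, Finset.card_univ,
            Fintype.card_fin, nsmul_eq_mul, hv]
          rw [← Finset.mul_sum, hv]
          ring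
    have g3 : ∑ e : Pair n, (if (e.1.1 : Fin n) = e.1.2 then 0 else v e.1.1 ^ 2 + v e.1.2 ^ 2) ≤
        n := by linarith
    calc 2 / ((n : ℝ) ^ 2 * Λ) *
        ∑ e : Pair n, (if (e.1.1 : Fin n) = e.1.2 then 0 else v e.1.1 ^ 2 + v e.1.2 ^ 2) ≤
        2 / ((n : ℝ) ^ 2 * Λ) * n := mul_le_mul_of_nonneg_left g3 (by positivity)
      _ = 2 / (n * Λ) := by field_simp

end Vale.Agent.P146.H327
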