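import Vale.Agent.P146.H425.R1Def

/-!
Entropy inequality for the tilted law `P_θ` of the plan R1, upper bounds for the mean squared
gradient and exponential tails.
-/

open MeasureTheory ProbabilityTheory

namespace Vale.Agent.P146.H327

open Vale.Agent.P157.Lv Vale.Agent.P146.H425 Vale.Agent.P146.R1

set_option linter.unusedSectionVars false

variable {κ : Type} [Fintype κ] {F : (κ → ℝ) → ℝ} {D : κ → (κ → ℝ) → ℝ}
  {B L x θ t0 t1 s t K : ℝ} {Ψ Ψ' : (κ → ℝ) → (κ → ℝ) → (κ → ℝ) → ℝ}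

lemma e3_xi (h : C11 F D B L) (hx : 0 < x) (t0 t1 : ℝ) :
    E3 fun z0 z1 (_ : κ → ℝ) => xi x t0 t1 F z0 z1 :=
  ((E3.of1 (eg_uu h hx t1)).sub (E3.of0 (eg_uu h hx t0))).const_mul x

lemma e3_exp_xi (h : C11 F D B L) (hx : 0 < x) (t0 t1 c : ℝ) :
    E3 fun z0 z1 (_ : κ → ℝ) => Real.exp (c * xi x t0 t1 F z0 z1) := by
  have l : ∀ t, Lip (uu x t F) := fun t => (c11_uu h hx t).lip.lip h.B0
  have l0 : Lip fun w : K3 κ → ℝ => uu x t0 F (b0 w) :=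
    lip_b (l t0) zero_le_one fun w w' => by rw [one_mul]; exact norm_b0 (w - w')
  have l1 : Lip fun w : K3 κ → ℝ => uu x t1 F (b1 w) :=
    lip_b (l t1) zero_le_one fun w w' => by rw [one_mul]; exact norm_b1 (w - w')
  have h1 := ((l1.add (l0.const_mul (-1))).const_mul (c * x)).exp_eg 1
  have e : (fun w : K3 κ → ℝ => Real.exp (c * xi x t0 t1 F (b0 w) (b1 w))) =
      fun w => Real.exp (1 * (c * x * (uu x t1 F (b1 w) + -1 * uu x t0 F (b0 w)))) := by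
    funext w
    unfold xi
    congr 1
    ring
  unfold E3
  rw [e]
  exact h1

/-- `E_x exp (θ x ξ) = exp L(θ)` -/
lemma Et_exp_xi (h : C11 F D B L) (hx : 0 < x) (h0 : 0 ≤ t0) (h01 : t0 ≤ t1) (h1 : t1 ≤ s)
    (hs : s ≤ 1) (θ : ℝ) :
    Et x 0 t0 t1 s F (fun z0 z1 _ => Real.exp (θ * xi x t0 t1 F z0 z1)) =
      Real.exp (Lth x θ t0 t1 F) := by
  have h2 := Et_weight (Ψ := fun _ _ _ => (1 : ℝ)) (θ := θ) h hx h0 h01 h1 hs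
  rw [Et_const h hx] at h2
  simp only [mul_one] at h2
  rw [Real.exp_neg, eq_comm, inv_mul_eq_one₀ (Real.exp_pos _).ne'] at h2
  exact h2.symm

/-- `E_θ exp (c x ξ) = exp (L(θ + c) - L(θ))` -/
lemma Et_exp_xi' (h : C11 F D B L) (hx : 0 < x) (h0 : 0 ≤ t0) (h01 : t0 ≤ t1) (h1 : t1 ≤ s)
    (hs : s ≤ 1) (θ c : ℝ) :
    Et x θ t0 t1 s F (fun z0 z1 _ => Real.exp (c * xi x t0 t1 F z0 z1)) =
      Real.exp (Lth x (θ + c) t0 t1 F - Lth x θ t0 t1 F) := by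
  rw [Et_weight h hx h0 h01 h1 hs]
  have e : (fun (z0 z1 _ : κ → ℝ) => Real.exp (θ * xi x t0 t1 F z0 z1) *
      Real.exp (c * xi x t0 t1 F z0 z1)) =
      fun z0 z1 _ => Real.exp ((θ + c) * xi x t0 t1 F z0 z1) := by
    funext z0 z1 z2
    rw [← Real.exp_add]
    ring_nf
  rw [e, Et_exp_xi h hx h0 h01 h1 hs, ← Real.exp_add]
  ring_nf

/-- `θ L'(θ) ≤ L(2θ) - L(θ)` -/
lemma theta_xi_le (h : C11 F D B L) (hx : 0 < x) (h0 : 0 ≤ t0) (h01 : t0 ≤ t1) (h1 : t1 ≤ s)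
    (hs : s ≤ 1) (θ : ℝ) :
    θ * Et x θ t0 t1 s F (fun z0 z1 _ => xi x t0 t1 F z0 z1) ≤
      Lth x (2 * θ) t0 t1 F - Lth x θ t0 t1 F := by
  have h2 := Et_jensen (θ := θ) (t0 := t0) (t1 := t1) (s := s) h hx
    ((e3_xi h hx t0 t1).const_mul θ) (e3_exp_xi h hx t0 t1 θ)
  rw [Et_exp_xi' h hx h0 h01 h1 hs, Et_const_mul, Real.exp_le_exp] at h2
  rw [two_mul]
  exact h2

/-- **The entropy inequality.** -/
theorem ent_ineq (h : C11 F D B L) (hx : 0 < x) (hΨ : E3 Ψ)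
    (hΨe : E3 fun z0 z1 z2 => Real.exp (Ψ z0 z1 z2)) (h0 : 0 ≤ t0) (h01 : t0 ≤ t1)
    (h1 : t1 ≤ s) (hs : s ≤ 1) :
    Et x θ t0 t1 s F Ψ ≤ Real.log (Et x 0 t0 t1 s F (fun z0 z1 z2 => Real.exp (Ψ z0 z1 z2))) +
      (Lth x (2 * θ) t0 t1 F - 2 * Lth x θ t0 t1 F) := by
  have e1 : (fun z0 z1 z2 => Real.exp (Ψ z0 z1 z2 - θ * xi x t0 t1 F z0 z1)) =
      fun z0 z1 z2 => Real.exp (Ψ z0 z1 z2) * Real.exp (-θ * xi x t0 t1 F z0 z1) := by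
    funext z0 z1 z2
    rw [← Real.exp_add]
    ring_nf
  have hA : E3 fun z0 z1 z2 => Real.exp (Ψ z0 z1 z2 - θ * xi x t0 t1 F z0 z1) := by
    rw [e1]
    exact hΨe.mul (e3_exp_xi h hx t0 t1 (-θ))
  have h2 := Et_jensen (θ := θ) (t0 := t0) (t1 := t1) (s := s) h hx
    (hΨ.sub ((e3_xi h hx t0 t1).const_mul θ)) hA
  rw [Et_sub h hx hΨ ((e3_xi h hx t0 t1).const_mul θ), Et_const_mul,
    Et_weight h hx h0 h01 h1 hs (Ψ := fun z0 z1 z2 =>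
      Real.exp (Ψ z0 z1 z2 - θ * xi x t0 t1 F z0 z1))] at h2
  have e2 : (fun z0 z1 z2 => Real.exp (θ * xi x t0 t1 F z0 z1) *
      Real.exp (Ψ z0 z1 z2 - θ * xi x t0 t1 F z0 z1)) =
      fun z0 z1 z2 => Real.exp (Ψ z0 z1 z2) := by
    funext z0 z1 z2
    rw [← Real.exp_add]
    ring_nf
  rw [e2] at h2
  have hpos : 0 < Et x 0 t0 t1 s F (fun z0 z1 z2 => Real.exp (Ψ z0 z1 z2)) := by
    have h3 := Et_jensen (θ := 0) (t0 := t0) (t1 := t1) (s := s) h hx hΨ hΨe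
    exact (Real.exp_pos _).trans_le h3
  have h3 := (Real.le_log_iff_exp_le (mul_pos (Real.exp_pos _) hpos)).2 h2
  rw [Real.log_mul (Real.exp_pos _).ne' hpos.ne', Real.log_exp] at h3
  have h4 := theta_xi_le h hx h0 h01 h1 hs θ
  linarith

/-- Transfer from `P_x` to `P_θ`. -/
theorem transfer (h : C11 F D B L) (hx : 0 < x) (hΨ : E3 Ψ) (h0 : 0 ≤ t0) (h01 : t0 ≤ t1)
    (h1 : t1 ≤ s) (hs : s ≤ 1) :
    Et x θ t0 t1 s F Ψ ≤ Real.exp (Lth x (2 * θ) t0 t1 F / 2 - Lth x θ t0 t1 F) *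
      √(Et x 0 t0 t1 s F (fun z0 z1 z2 => Ψ z0 z1 z2 ^ 2)) := by
  rw [Et_weight h hx h0 h01 h1 hs]
  have h2 := Et_cs (θ := 0) (t0 := t0) (t1 := t1) (s := s) h hx
    (e3_exp_xi h hx t0 t1 θ) hΨ
  have e : (fun (z0 z1 _ : κ → ℝ) => Real.exp (θ * xi x t0 t1 F z0 z1) ^ 2) =
      fun z0 z1 _ => Real.exp (2 * θ * xi x t0 t1 F z0 z1) := by
    funext z0 z1 z2
    rw [← Real.exp_nat_mul]
    congr 1
    push_cast
    ring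
  rw [e, Et_exp_xi h hx h0 h01 h1 hs] at h2
  have h3 := Real.sqrt_le_sqrt h2
  rw [Real.sqrt_sq_eq_abs, Real.sqrt_mul (Real.exp_pos _).le] at h3
  have h4 : √(Real.exp (Lth x (2 * θ) t0 t1 F)) = Real.exp (Lth x (2 * θ) t0 t1 F / 2) := by
    rw [Real.exp_half]
  rw [h4] at h3
  have h5 : Real.exp (Lth x (2 * θ) t0 t1 F / 2 - Lth x θ t0 t1 F) =
      Real.exp (-(Lth x θ t0 t1 F)) * Real.exp (Lth x (2 * θ) t0 t1 F / 2) := by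
    rw [← Real.exp_add]; ring_nf
  rw [h5, mul_assoc]
  exact mul_le_mul_of_nonneg_left ((le_abs_self _).trans h3) (Real.exp_pos _).le

/-! ### functions of one position under `P_x` -/

/-- `θ = 0`, a function of the first position -/
lemma Eu_zero0 {ψ : (κ → ℝ) → ℝ} (h : C11 F D B L) (hx : 0 < x) (hψ : EG ψ)
    (h01 : t0 ≤ t1) (h1 : t1 ≤ s) (hs : s ≤ 1) :
    Eu x 0 t0 t1 s F (fun z0 _ _ => ψ z0) = Nm x (√t0) (√(1 - t0)) F ψ := by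
  rw [Eu_fst (ψ := fun z0 _ => ψ z0) h hx (E3.of0 hψ) h1 hs]
  unfold Nm
  refine integral_congr_ae (Filter.Eventually.of_forall fun y0 => ?_)
  simp only [zero_mul, add_zero]
  rw [integral_mul_const, uu_step h hx h01 (h1.trans hs)]
  rfl

lemma Eu_zero1 {ψ : (κ → ℝ) → ℝ} (h : C11 F D B L) (hx : 0 < x) (hψ : EG ψ)
    (h0 : 0 ≤ t0) (h01 : t0 ≤ t1) (h1 : t1 ≤ s) (hs : s ≤ 1) :
    Eu x 0 t0 t1 s F (fun _ z1 _ => ψ z1) = Nm x (√t1) (√(1 - t1)) F ψ := by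
  rw [Eu_fst_eq (ψ := fun _ z1 => ψ z1) h hx (E3.of1 hψ) h1 hs,
    ← Eu_zero h hx hψ h0 h01 le_rfl]
  unfold Eu
  refine integral_congr_ae (Filter.Eventually.of_forall fun w => ?_)
  simp only
  congr 1
  unfold q2
  simp

/-- the quadratic exponential moment, in `Et` form -/
lemma nm_ut (h : C11 F D B L) (hc : Cv F) (hx : 0 < x) {t : ℝ} (h0 : 0 ≤ t) (h1 : t ≤ 1) :
    Nm x (√t) (√(1 - t)) F (fun z => Real.exp (x ^ 2 / 2 * (1 - t) * sq x t F D z)) /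
      ∫ z, Real.exp (x * F z) ∂(gI κ) ≤ Real.exp (x ^ 2 / 2 * GG (2 * x) F D) := by
  have hab : √t ^ 2 + √(1 - t) ^ 2 = 1 := by
    rw [Real.sq_sqrt h0, Real.sq_sqrt (by linarith)]; ring
  have h2 := ut h hc hx hab
  rw [Real.sq_sqrt (show 0 ≤ 1 - t by linarith)] at h2
  have h3 := phi_two_le h hc hx
  have hA : 0 < ∫ z, Real.exp (x * F z) ∂(gI κ) := integral_exp_pos (h.eg_exp x).integrable
  rw [div_le_iff₀ hA]
  have e : ∫ z, Real.exp (x * F z) ∂(gI κ) = Real.exp (x * W x 1 F 0) := by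
    have e := h.lip.exp_W h.B0 hx (s := 1) 0
    simp only [zero_add, one_smul] at e
    exact e.symm
  have h4 : Nm x (√t) (√(1 - t)) F (fun z => Real.exp (x ^ 2 / 2 * (1 - t) * sq x t F D z)) ≤
      Real.exp (x * W (2 * x) 1 F 0) := by
    refine le_trans (le_of_eq ?_) h2
    unfold Nm
    refine integral_congr_ae (Filter.Eventually.of_forall fun z => ?_)
    simp only
    unfold R1.sq
    ring_nf
  refine h4.trans ?_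
  rw [e, ← Real.exp_add]
  refine Real.exp_le_exp.2 ?_
  unfold GG
  nlinarith [mul_le_mul_of_nonneg_left h3 hx.le]

lemma sq_nonneg' (x t : ℝ) (F : (κ → ℝ) → ℝ) (D : κ → (κ → ℝ) → ℝ) (z : κ → ℝ) :
    0 ≤ sq x t F D z := Finset.sum_nonneg fun _ _ => sq_nonneg _

lemma eg_sq (h : C11 F D B L) (hx : 0 < x) (t : ℝ) : EG (sq x t F D) := (c11_uu h hx t).eg_G2

lemma eg_exp_sq (h : C11 F D B L) (hx : 0 < x) (t c : ℝ) :
    EG fun z => Real.exp (c * sq x t F D z) := by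
  refine EG.of_bdd ((eg_sq h hx t).meas.const_mul c).exp
    (C := Real.exp (|c| * (Fintype.card κ * B ^ 2))) fun y => ?_
  rw [abs_of_pos (Real.exp_pos _)]
  refine Real.exp_le_exp.2 ?_
  have h1 : sq x t F D y ≤ Fintype.card κ * B ^ 2 := (G2_bd (c11_uu h hx t) y).2
  have h0 := sq_nonneg' x t F D y
  calc c * sq x t F D y ≤ |c| * sq x t F D y := mul_le_mul_of_nonneg_right (le_abs_self c) h0
    _ ≤ _ := mul_le_mul_of_nonneg_left h1 (abs_nonneg c)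

lemma ut2 (h : C11 F D B L) (hc : Cv F) (hx : 0 < x) (h0 : 0 ≤ t0) (h01 : t0 ≤ t1)
    (h1 : t1 ≤ s) (hs : s ≤ 1) :
    Et x 0 t0 t1 s F (fun _ _ z2 => Real.exp (x ^ 2 / 2 * (1 - s) * sq x s F D z2)) ≤
      Real.exp (x ^ 2 / 2 * GG (2 * x) F D) := by
  rw [Et_zero h hx (eg_exp_sq h hx s _) h0 h01 h1 hs]
  exact nm_ut h hc hx (h0.trans (h01.trans h1)) hs

lemma ut1 (h : C11 F D B L) (hc : Cv F) (hx : 0 < x) (h0 : 0 ≤ t0) (h01 : t0 ≤ t1)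
    (h1 : t1 ≤ s) (hs : s ≤ 1) :
    Et x 0 t0 t1 s F (fun _ z1 _ => Real.exp (x ^ 2 / 2 * (1 - t1) * sq x t1 F D z1)) ≤
      Real.exp (x ^ 2 / 2 * GG (2 * x) F D) := by
  unfold Et
  rw [Eu_zero1 h hx (eg_exp_sq h hx t1 _) h0 h01 h1 hs, Eu_zero_one h hx h0 h01 h1 hs]
  exact nm_ut h hc hx (h0.trans h01) (h1.trans hs)

lemma ut0 (h : C11 F D B L) (hc : Cv F) (hx : 0 < x) (h0 : 0 ≤ t0) (h01 : t0 ≤ t1)
    (h1 : t1 ≤ s) (hs : s ≤ 1) :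
    Et x 0 t0 t1 s F (fun z0 _ _ => Real.exp (x ^ 2 / 2 * (1 - t0) * sq x t0 F D z0)) ≤
      Real.exp (x ^ 2 / 2 * GG (2 * x) F D) := by
  unfold Et
  rw [Eu_zero0 h hx (eg_exp_sq h hx t0 _) h01 h1 hs, Eu_zero_one h hx h0 h01 h1 hs]
  exact nm_ut h hc hx h0 (h01.trans (h1.trans hs))

/-! ### the mean squared gradient under `P_θ` -/

lemma Et_exp_pos (h : C11 F D B L) (hx : 0 < x) (hΨ : E3 Ψ)
    (hΨe : E3 fun z0 z1 z2 => Real.exp (Ψ z0 z1 z2)) :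
    0 < Et x θ t0 t1 s F (fun z0 z1 z2 => Real.exp (Ψ z0 z1 z2)) :=
  (Real.exp_pos _).trans_le (Et_jensen h hx hΨ hΨe)

/-- from the exponential moment to the mean -/
lemma mean_le (h : C11 F D B L) (hx : 0 < x) {ψ : (κ → ℝ) → (κ → ℝ) → (κ → ℝ) → ℝ}
    (hψ : E3 ψ) (hψe : ∀ c : ℝ, E3 fun z0 z1 z2 => Real.exp (c * ψ z0 z1 z2))
    (h0 : 0 ≤ t0) (h01 : t0 ≤ t1) (h1 : t1 ≤ s) (hs : s ≤ 1)
    (hL : 0 ≤ Lth x θ t0 t1 F) {r G : ℝ}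
    (hut : Et x 0 t0 t1 s F (fun z0 z1 z2 => Real.exp (x ^ 2 / 2 * r * ψ z0 z1 z2)) ≤
      Real.exp (x ^ 2 / 2 * G)) :
    r * Et x θ t0 t1 s F ψ ≤ G + 2 / x ^ 2 * Lth x (2 * θ) t0 t1 F := by
  have h2 := ent_ineq (θ := θ) h hx (hψ.const_mul (x ^ 2 / 2 * r)) (hψe _) h0 h01 h1 hs
  have hp := Et_exp_pos (θ := 0) (t0 := t0) (t1 := t1) (s := s) h hx
    (hψ.const_mul (x ^ 2 / 2 * r)) (hψe _)
  have h3 := (Real.log_le_iff_le_exp hp).2 hut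
  rw [Et_const_mul] at h2
  have hx2 : 0 < x ^ 2 := by positivity
  have h4 : x ^ 2 / 2 * r * Et x θ t0 t1 s F ψ ≤ x ^ 2 / 2 * G + Lth x (2 * θ) t0 t1 F := by
    linarith
  have h5 := mul_le_mul_of_nonneg_left h4 (show 0 ≤ 2 / x ^ 2 by positivity)
  have e1 : 2 / x ^ 2 * (x ^ 2 / 2 * r * Et x θ t0 t1 s F ψ) = r * Et x θ t0 t1 s F ψ := by
    field_simp
  have e2 : 2 / x ^ 2 * (x ^ 2 / 2 * G + Lth x (2 * θ) t0 t1 F) =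
      G + 2 / x ^ 2 * Lth x (2 * θ) t0 t1 F := by
    field_simp
  rw [e1, e2] at h5
  exact h5

/-- **The mean squared gradient at the time `s` under `P_θ`.** -/
theorem sq2_le (h : C11 F D B L) (hc : Cv F) (hx : 0 < x) (h0 : 0 ≤ t0) (h01 : t0 ≤ t1)
    (h1 : t1 ≤ s) (hs : s ≤ 1) (hL : 0 ≤ Lth x θ t0 t1 F) :
    (1 - s) * Et x θ t0 t1 s F (fun _ _ z2 => sq x s F D z2) ≤
      GG (2 * x) F D + 2 / x ^ 2 * Lth x (2 * θ) t0 t1 F :=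
  mean_le h hx (E3.of2 (eg_sq h hx s)) (fun c => E3.of2 (eg_exp_sq h hx s c)) h0 h01 h1 hs hL
    (ut2 h hc hx h0 h01 h1 hs)

/-- The mean squared gradient at the time `t1` under `P_θ`. -/
theorem sq1_le (h : C11 F D B L) (hc : Cv F) (hx : 0 < x) (h0 : 0 ≤ t0) (h01 : t0 ≤ t1)
    (h1 : t1 ≤ s) (hs : s ≤ 1) (hL : 0 ≤ Lth x θ t0 t1 F) :
    (1 - t1) * Et x θ t0 t1 s F (fun _ z1 _ => sq x t1 F D z1) ≤
      GG (2 * x) F D + 2 / x ^ 2 * Lth x (2 * θ) t0 t1 F :=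
  mean_le h hx (E3.of1 (eg_sq h hx t1)) (fun c => E3.of1 (eg_exp_sq h hx t1 c)) h0 h01 h1 hs hL
    (ut1 h hc hx h0 h01 h1 hs)

/-- The mean squared gradient at the time `t0` under `P_θ`. -/
theorem sq0_le (h : C11 F D B L) (hc : Cv F) (hx : 0 < x) (h0 : 0 ≤ t0) (h01 : t0 ≤ t1)
    (h1 : t1 ≤ s) (hs : s ≤ 1) (hL : 0 ≤ Lth x θ t0 t1 F) :
    (1 - t0) * Et x θ t0 t1 s F (fun z0 _ _ => sq x t0 F D z0) ≤
      GG (2 * x) F D + 2 / x ^ 2 * Lth x (2 * θ) t0 t1 F :=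
  mean_le h hx (E3.of0 (eg_sq h hx t0)) (fun c => E3.of0 (eg_exp_sq h hx t0 c)) h0 h01 h1 hs hL
    (ut0 h hc hx h0 h01 h1 hs)

/-! ### exponential tails -/

/-- exponential tail from the exponential moment -/
lemma tail_of (h : C11 F D B L) (hx : 0 < x) {ψ χ : (κ → ℝ) → (κ → ℝ) → (κ → ℝ) → ℝ}
    (hψe : E3 fun z0 z1 z2 => Real.exp (ψ z0 z1 z2)) (hχ : E3 χ)
    (c0 : ∀ z0 z1 z2, 0 ≤ χ z0 z1 z2) (c1 : ∀ z0 z1 z2, χ z0 z1 z2 ≤ 1)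
    (hK : ∀ z0 z1 z2, χ z0 z1 z2 ≠ 0 → K ≤ ψ z0 z1 z2)
    (h0 : 0 ≤ t0) (h01 : t0 ≤ t1) (h1 : t1 ≤ s) (hs : s ≤ 1)
    (hL : 0 ≤ Lth x θ t0 t1 F) {G : ℝ}
    (hut : Et x 0 t0 t1 s F (fun z0 z1 z2 => Real.exp (ψ z0 z1 z2)) ≤ Real.exp G) :
    Et x θ t0 t1 s F χ ≤ Real.exp (-K / 2 + G / 2 + Lth x (2 * θ) t0 t1 F / 2) := by
  refine (transfer h hx hχ h0 h01 h1 hs).trans ?_
  have h2 : Et x 0 t0 t1 s F (fun z0 z1 z2 => χ z0 z1 z2 ^ 2) ≤ Real.exp (-K + G) := by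
    have h3 : Et x 0 t0 t1 s F (fun z0 z1 z2 => χ z0 z1 z2 ^ 2) ≤
        Et x 0 t0 t1 s F (fun z0 z1 z2 => Real.exp (-K) * Real.exp (ψ z0 z1 z2)) := by
      refine Et_mono h hx (hχ.pow 2) (hψe.const_mul _) fun z0 z1 z2 => ?_
      rcases eq_or_ne (χ z0 z1 z2) 0 with h4 | h4
      · rw [h4]; simp only [ne_eq, OfNat.ofNat_ne_zero, not_false_eq_true, zero_pow]
        positivity
      · rw [← Real.exp_add]
        have h5 := hK z0 z1 z2 h4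
        have h6 : (1 : ℝ) ≤ Real.exp (-K + ψ z0 z1 z2) := Real.one_le_exp (by linarith)
        have h7 := c0 z0 z1 z2
        have h8 := c1 z0 z1 z2
        nlinarith
    rw [Et_const_mul] at h3
    refine h3.trans ?_
    rw [Real.exp_add]
    exact mul_le_mul_of_nonneg_left hut (Real.exp_pos _).le
  calc Real.exp (Lth x (2 * θ) t0 t1 F / 2 - Lth x θ t0 t1 F) *
      √(Et x 0 t0 t1 s F (fun z0 z1 z2 => χ z0 z1 z2 ^ 2))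
      ≤ Real.exp (Lth x (2 * θ) t0 t1 F / 2) * √(Real.exp (-K + G)) := by
        refine mul_le_mul (Real.exp_le_exp.2 (by linarith)) (Real.sqrt_le_sqrt h2)
          (Real.sqrt_nonneg _) (Real.exp_pos _).le
    _ = _ := by
        rw [← Real.exp_half, ← Real.exp_add]
        congr 1
        ring

/-- Tail of the squared gradient at the time `s`. -/
theorem tail2 (h : C11 F D B L) (hc : Cv F) (hx : 0 < x)
    {χ : (κ → ℝ) → (κ → ℝ) → (κ → ℝ) → ℝ} (hχ : E3 χ)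
    (c0 : ∀ z0 z1 z2, 0 ≤ χ z0 z1 z2) (c1 : ∀ z0 z1 z2, χ z0 z1 z2 ≤ 1)
    (hK : ∀ z0 z1 z2, χ z0 z1 z2 ≠ 0 → K ≤ x ^ 2 / 2 * (1 - s) * sq x s F D z2)
    (h0 : 0 ≤ t0) (h01 : t0 ≤ t1) (h1 : t1 ≤ s) (hs : s ≤ 1) (hL : 0 ≤ Lth x θ t0 t1 F) :
    Et x θ t0 t1 s F χ ≤ Real.exp (-K / 2 + x ^ 2 / 4 * GG (2 * x) F D +
      Lth x (2 * θ) t0 t1 F / 2) := by
  have h2 := tail_of (ψ := fun _ _ z2 => x ^ 2 / 2 * (1 - s) * R1.sq x s F D z2)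
    (G := x ^ 2 / 2 * GG (2 * x) F D) h hx
    (E3.of2 (eg_exp_sq h hx s (x ^ 2 / 2 * (1 - s)))) hχ c0 c1 hK
    h0 h01 h1 hs hL (ut2 h hc hx h0 h01 h1 hs)
  refine h2.trans (le_of_eq ?_)
  congr 1
  ring

/-- Tail of the squared gradient at the time `t1`. -/
theorem tail1 (h : C11 F D B L) (hc : Cv F) (hx : 0 < x)
    {χ : (κ → ℝ) → (κ → ℝ) → (κ → ℝ) → ℝ} (hχ : E3 χ)
    (c0 : ∀ z0 z1 z2, 0 ≤ χ z0 z1 z2) (c1 : ∀ z0 z1 z2, χ z0 z1 z2 ≤ 1)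
    (hK : ∀ z0 z1 z2, χ z0 z1 z2 ≠ 0 → K ≤ x ^ 2 / 2 * (1 - t1) * sq x t1 F D z1)
    (h0 : 0 ≤ t0) (h01 : t0 ≤ t1) (h1 : t1 ≤ s) (hs : s ≤ 1) (hL : 0 ≤ Lth x θ t0 t1 F) :
    Et x θ t0 t1 s F χ ≤ Real.exp (-K / 2 + x ^ 2 / 4 * GG (2 * x) F D +
      Lth x (2 * θ) t0 t1 F / 2) := by
  have h2 := tail_of (ψ := fun _ z1 _ => x ^ 2 / 2 * (1 - t1) * R1.sq x t1 F D z1)
    (G := x ^ 2 / 2 * GG (2 * x) F D) h hx
    (E3.of1 (eg_exp_sq h hx t1 (x ^ 2 / 2 * (1 - t1)))) hχ c0 c1 hK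
    h0 h01 h1 hs hL (ut1 h hc hx h0 h01 h1 hs)
  refine h2.trans (le_of_eq ?_)
  congr 1
  ring

/-- Tail of the squared gradient at the time `t0`. -/
theorem tail0 (h : C11 F D B L) (hc : Cv F) (hx : 0 < x)
    {χ : (κ → ℝ) → (κ → ℝ) → (κ → ℝ) → ℝ} (hχ : E3 χ)
    (c0 : ∀ z0 z1 z2, 0 ≤ χ z0 z1 z2) (c1 : ∀ z0 z1 z2, χ z0 z1 z2 ≤ 1)
    (hK : ∀ z0 z1 z2, χ z0 z1 z2 ≠ 0 → K ≤ x ^ 2 / 2 * (1 - t0) * sq x t0 F D z0)
    (h0 : 0 ≤ t0) (h01 : t0 ≤ t1) (h1 : t1 ≤ s) (hs : s ≤ 1) (hL : 0 ≤ Lth x θ t0 t1 F) :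
    Et x θ t0 t1 s F χ ≤ Real.exp (-K / 2 + x ^ 2 / 4 * GG (2 * x) F D +
      Lth x (2 * θ) t0 t1 F / 2) := by
  have h2 := tail_of (ψ := fun z0 _ _ => x ^ 2 / 2 * (1 - t0) * R1.sq x t0 F D z0)
    (G := x ^ 2 / 2 * GG (2 * x) F D) h hx
    (E3.of0 (eg_exp_sq h hx t0 (x ^ 2 / 2 * (1 - t0)))) hχ c0 c1 hK
    h0 h01 h1 hs hL (ut0 h hc hx h0 h01 h1 hs)
  refine h2.trans (le_of_eq ?_)
  congr 1
  ring

end Vale.Agent.P146.H327
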