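import Vale.Agent.P146.H327.Ent

/-!
Moments of the squared gradient under `P_θ` (plan R1, block F).
-/

open MeasureTheory ProbabilityTheory

namespace Vale.Agent.P146.H327

open Vale.Agent.P157.Lv Vale.Agent.P146.H425 Vale.Agent.P146.R1

set_option linter.unusedSectionVars false

variable {κ : Type} [Fintype κ] {F : (κ → ℝ) → ℝ} {D : κ → (κ → ℝ) → ℝ}
  {B L x θ t0 t1 s t M Bd : ℝ}

/-- The squared gradient of the value function is at most the largest squared gradient of `F`. -/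
lemma sq_le (h : C11 F D B L) (hB : ∀ z, ∑ e, D e z ^ 2 ≤ Bd) (x t : ℝ) (z : κ → ℝ) :
    sq x t F D z ≤ Bd := by
  set q : (κ → ℝ) → ℝ := fun y => Real.exp (x * F (z + √(1 - t) • y)) with hq
  have eq : EG q := h.lip.eg_exp h.B0 z _ x
  have q0 : ∀ y, 0 ≤ q y := fun y => (Real.exp_pos _).le
  have hA : 0 < ∫ y, q y ∂(gI κ) := h.lip.pos h.B0 z _ x
  have eD : ∀ e, EG fun y => D e (z + √(1 - t) • y) := fun e => EG.add_smul (h.eg_D e) z _
  have h1 : ∀ e ∈ (Finset.univ : Finset κ), DW x (√(1 - t)) F D e z ^ 2 ≤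
      (∫ y, q y * D e (z + √(1 - t) • y) ^ 2 ∂(gI κ)) / ∫ y, q y ∂(gI κ) := by
    intro e _
    rw [le_div_iff₀ hA, mul_comm]
    exact cs_int eq q0 hA (eD e)
  have h2 : sq x t F D z ≤ ∑ e, (∫ y, q y * D e (z + √(1 - t) • y) ^ 2 ∂(gI κ)) /
      ∫ y, q y ∂(gI κ) := Finset.sum_le_sum h1
  refine h2.trans ?_
  rw [← Finset.sum_div, div_le_iff₀ hA,
    ← integral_finsetSum _ fun e _ => (eq.mul ((eD e).pow 2)).integrable, ← integral_const_mul]
  refine integral_mono (integrable_finsetSum _ fun e _ => (eq.mul ((eD e).pow 2)).integrable)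
    (eq.integrable.const_mul Bd) fun y => ?_
  simp only
  rw [← Finset.mul_sum, mul_comm Bd]
  exact mul_le_mul_of_nonneg_left (hB _) (q0 y)

open Classical in
lemma eg_ind_ge (h : C11 F D B L) (hx : 0 < x) (t M : ℝ) :
    EG fun z => if M ≤ sq x t F D z then (1 : ℝ) else 0 := by
  refine EG.of_bdd (C := 1) (Measurable.ite (measurableSet_le measurable_const
    (eg_sq h hx t).meas) measurable_const measurable_const) fun z => ?_
  split_ifs <;> simp

open Classical in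
lemma pow_split (h : C11 F D B L) (hB : ∀ z, ∑ e, D e z ^ 2 ≤ Bd) (hM : 0 ≤ M)
    (x t : ℝ) (p : ℕ) (z : κ → ℝ) : sq x t F D z ^ p ≤ M ^ p +
      Bd ^ p * (if M ≤ sq x t F D z then (1 : ℝ) else 0) := by
  have h0 := sq_nonneg' x t F D z
  have hB0 : 0 ≤ Bd := (Finset.sum_nonneg fun e _ => sq_nonneg (D e 0)).trans (hB 0)
  by_cases hc : M ≤ sq x t F D z
  · rw [if_pos hc, mul_one]
    have := pow_le_pow_left₀ h0 (sq_le h hB x t z) p
    have := pow_nonneg hM p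
    linarith
  · rw [if_neg hc, mul_zero, add_zero]
    exact pow_le_pow_left₀ h0 (not_le.1 hc).le p

section
variable (h : C11 F D B L) (hc : Cv F) (hx : 0 < x) (h0 : 0 ≤ t0) (h01 : t0 ≤ t1)
  (h1 : t1 ≤ s) (hs : s ≤ 1) (hL : 0 ≤ Lth x θ t0 t1 F)
include h hc hx h0 h01 h1 hs hL

open Classical in
/-- The squared gradient is large only on an exponentially small event: time `s`. -/
theorem up2 (M : ℝ) :
    Et x θ t0 t1 s F (fun _ _ z2 => if M ≤ sq x s F D z2 then (1 : ℝ) else 0) ≤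
      Real.exp (-(x ^ 2 * (1 - s) * M / 4) + x ^ 2 / 4 * GG (2 * x) F D +
        Lth x (2 * θ) t0 t1 F / 2) := by
  have h2 := tail2 (K := x ^ 2 / 2 * (1 - s) * M) h hc hx (E3.of2 (eg_ind_ge h hx s M))
    (fun _ _ _ => by split_ifs <;> norm_num) (fun _ _ _ => by split_ifs <;> norm_num)
    (fun z0 z1 z2 hne => ?_) h0 h01 h1 hs hL
  · refine h2.trans (le_of_eq ?_)
    congr 1
    ring
  · have : M ≤ sq x s F D z2 := by
      by_contra hn
      exact hne (if_neg hn)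
    have : 0 ≤ 1 - s := by linarith
    gcongr

open Classical in
/-- The squared gradient is large only on an exponentially small event: time `t1`. -/
theorem up1 (M : ℝ) :
    Et x θ t0 t1 s F (fun _ z1 _ => if M ≤ sq x t1 F D z1 then (1 : ℝ) else 0) ≤
      Real.exp (-(x ^ 2 * (1 - t1) * M / 4) + x ^ 2 / 4 * GG (2 * x) F D +
        Lth x (2 * θ) t0 t1 F / 2) := by
  have h2 := tail1 (K := x ^ 2 / 2 * (1 - t1) * M) h hc hx (E3.of1 (eg_ind_ge h hx t1 M))
    (fun _ _ _ => by split_ifs <;> norm_num) (fun _ _ _ => by split_ifs <;> norm_num)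
    (fun z0 z1 z2 hne => ?_) h0 h01 h1 hs hL
  · refine h2.trans (le_of_eq ?_)
    congr 1
    ring
  · have : M ≤ sq x t1 F D z1 := by
      by_contra hn
      exact hne (if_neg hn)
    have : 0 ≤ 1 - t1 := by linarith
    gcongr

open Classical in
/-- The squared gradient is large only on an exponentially small event: time `t0`. -/
theorem up0 (M : ℝ) :
    Et x θ t0 t1 s F (fun z0 _ _ => if M ≤ sq x t0 F D z0 then (1 : ℝ) else 0) ≤
      Real.exp (-(x ^ 2 * (1 - t0) * M / 4) + x ^ 2 / 4 * GG (2 * x) F D +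
        Lth x (2 * θ) t0 t1 F / 2) := by
  have h2 := tail0 (K := x ^ 2 / 2 * (1 - t0) * M) h hc hx (E3.of0 (eg_ind_ge h hx t0 M))
    (fun _ _ _ => by split_ifs <;> norm_num) (fun _ _ _ => by split_ifs <;> norm_num)
    (fun z0 z1 z2 hne => ?_) h0 h01 h1 hs hL
  · refine h2.trans (le_of_eq ?_)
    congr 1
    ring
  · have : M ≤ sq x t0 F D z0 := by
      by_contra hn
      exact hne (if_neg hn)
    have : 0 ≤ 1 - t0 := by linarith
    gcongr

/-- Moments of the squared gradient: time `s`. -/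
theorem mom2 (hB : ∀ z, ∑ e, D e z ^ 2 ≤ Bd) (hM : 0 ≤ M) (p : ℕ) :
    Et x θ t0 t1 s F (fun _ _ z2 => sq x s F D z2 ^ p) ≤ M ^ p + Bd ^ p *
      Real.exp (-(x ^ 2 * (1 - s) * M / 4) + x ^ 2 / 4 * GG (2 * x) F D +
        Lth x (2 * θ) t0 t1 F / 2) := by
  classical
  have hB0 : 0 ≤ Bd := (Finset.sum_nonneg fun e _ => sq_nonneg (D e 0)).trans (hB 0)
  have e1 : E3 fun (_ _ : κ → ℝ) z2 => if M ≤ sq x s F D z2 then (1 : ℝ) else 0 :=
    E3.of2 (eg_ind_ge h hx s M)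
  have h2 := Et_mono (θ := θ) (t0 := t0) (t1 := t1) (s := s) h hx
    (Ψ := fun _ _ z2 => sq x s F D z2 ^ p)
    (Ψ' := fun _ _ z2 => M ^ p + Bd ^ p * (if M ≤ sq x s F D z2 then (1 : ℝ) else 0))
    ((E3.of2 (eg_sq h hx s)).pow p) ((E3.const _).add (e1.const_mul _))
    fun _ _ z2 => pow_split h hB hM x s p z2
  rw [Et_add h hx (E3.const (M ^ p)) (e1.const_mul (Bd ^ p)), Et_const h hx, Et_const_mul] at h2
  have h3 := mul_le_mul_of_nonneg_left (up2 h hc hx h0 h01 h1 hs hL M)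
    (pow_nonneg hB0 p)
  linarith

/-- Moments of the squared gradient: time `t1`. -/
theorem mom1 (hB : ∀ z, ∑ e, D e z ^ 2 ≤ Bd) (hM : 0 ≤ M) (p : ℕ) :
    Et x θ t0 t1 s F (fun _ z1 _ => sq x t1 F D z1 ^ p) ≤ M ^ p + Bd ^ p *
      Real.exp (-(x ^ 2 * (1 - t1) * M / 4) + x ^ 2 / 4 * GG (2 * x) F D +
        Lth x (2 * θ) t0 t1 F / 2) := by
  classical
  have hB0 : 0 ≤ Bd := (Finset.sum_nonneg fun e _ => sq_nonneg (D e 0)).trans (hB 0)
  have e1 : E3 fun (_ : κ → ℝ) z1 (_ : κ → ℝ) => if M ≤ sq x t1 F D z1 then (1 : ℝ) else 0 :=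
    E3.of1 (eg_ind_ge h hx t1 M)
  have h2 := Et_mono (θ := θ) (t0 := t0) (t1 := t1) (s := s) h hx
    (Ψ := fun _ z1 _ => sq x t1 F D z1 ^ p)
    (Ψ' := fun _ z1 _ => M ^ p + Bd ^ p * (if M ≤ sq x t1 F D z1 then (1 : ℝ) else 0))
    ((E3.of1 (eg_sq h hx t1)).pow p) ((E3.const _).add (e1.const_mul _))
    fun _ z1 _ => pow_split h hB hM x t1 p z1
  rw [Et_add h hx (E3.const (M ^ p)) (e1.const_mul (Bd ^ p)), Et_const h hx, Et_const_mul] at h2
  have h3 := mul_le_mul_of_nonneg_left (up1 h hc hx h0 h01 h1 hs hL M)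
    (pow_nonneg hB0 p)
  linarith

/-- Moments of the squared gradient: time `t0`. -/
theorem mom0 (hB : ∀ z, ∑ e, D e z ^ 2 ≤ Bd) (hM : 0 ≤ M) (p : ℕ) :
    Et x θ t0 t1 s F (fun z0 _ _ => sq x t0 F D z0 ^ p) ≤ M ^ p + Bd ^ p *
      Real.exp (-(x ^ 2 * (1 - t0) * M / 4) + x ^ 2 / 4 * GG (2 * x) F D +
        Lth x (2 * θ) t0 t1 F / 2) := by
  classical
  have hB0 : 0 ≤ Bd := (Finset.sum_nonneg fun e _ => sq_nonneg (D e 0)).trans (hB 0)
  have e1 : E3 fun z0 (_ _ : κ → ℝ) => if M ≤ sq x t0 F D z0 then (1 : ℝ) else 0 :=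
    E3.of0 (eg_ind_ge h hx t0 M)
  have h2 := Et_mono (θ := θ) (t0 := t0) (t1 := t1) (s := s) h hx
    (Ψ := fun z0 _ _ => sq x t0 F D z0 ^ p)
    (Ψ' := fun z0 _ _ => M ^ p + Bd ^ p * (if M ≤ sq x t0 F D z0 then (1 : ℝ) else 0))
    ((E3.of0 (eg_sq h hx t0)).pow p) ((E3.const _).add (e1.const_mul _))
    fun z0 _ _ => pow_split h hB hM x t0 p z0
  rw [Et_add h hx (E3.const (M ^ p)) (e1.const_mul (Bd ^ p)), Et_const h hx, Et_const_mul] at h2
  have h3 := mul_le_mul_of_nonneg_left (up0 h hc hx h0 h01 h1 hs hL M)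
    (pow_nonneg hB0 p)
  linarith

end

end Vale.Agent.P146.H327
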