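import Vale.Agent.P146.H327.Low
import Vale.Agent.P146.H640.Pl

/-!
Self-averaging from below at every time `s ≥ t1` under `P_θ` (plan R1, item (4)).
-/

open MeasureTheory ProbabilityTheory

namespace Vale.Agent.P146.H327

open Vale.Agent.P157.Lv Vale.Agent.P146.H425 Vale.Agent.P146.R1

set_option linter.unusedSectionVars false

variable {κ : Type} [Fintype κ] {F : (κ → ℝ) → ℝ} {D : κ → (κ → ℝ) → ℝ}
  {B L x θ t0 t1 s t X l : ℝ}

lemma slice (h : C11 F D B L) (hc : Cv F) (hx : 0 < x) (h01 : t0 ≤ s) (hs : s ≤ 1) (l : ℝ) :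
    Slice x t0 s l F D := fun z0 => pl_slice h hc hx h01 hs (by positivity) z0

open Classical in
lemma e3_ind_sq2 (h : C11 F D B L) (hx : 0 < x) (s l : ℝ) :
    E3 fun (_ _ : κ → ℝ) z2 => if sq x s F D z2 ≤ l then (1 : ℝ) else 0 := by
  have h1 := eg_ite_sq h hx s l (EG.const 1)
  refine E3.of2 (ψ := fun z2 => if sq x s F D z2 ≤ l then (1 : ℝ) else 0) ?_
  convert h1 using 2

open Classical in
lemma e3_ind_xi (h : C11 F D B L) (hx : 0 < x) (t0 t1 X : ℝ) :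
    E3 fun z0 z1 (_ : κ → ℝ) => if xi x t0 t1 F z0 z1 < X then (1 : ℝ) else 0 := by
  refine EG.of_bdd (C := 1) (Measurable.ite (measurableSet_lt (e3_xi h hx t0 t1).meas
    measurable_const) measurable_const measurable_const) fun z => ?_
  show |if xi x t0 t1 F (b0 z) (b1 z) < X then (1 : ℝ) else 0| ≤ 1
  split_ifs <;> simp

open Classical in
/-- **(S1) self-averaging from below at the time `s`.** -/
theorem sa (h : C11 F D B L) (hc : Cv F) (hx : 0 < x) (h0 : 0 ≤ t0) (h01 : t0 ≤ t1)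
    (h1 : t1 ≤ s) (hs : s ≤ 1) (hL : 0 ≤ Lth x θ t0 t1 F) (X l : ℝ) :
    Et x θ t0 t1 s F (fun _ _ z2 => if sq x s F D z2 ≤ l ^ 2 then (1 : ℝ) else 0) ≤
      Et x θ t0 t1 s F (fun z0 z1 _ => if xi x t0 t1 F z0 z1 < X then (1 : ℝ) else 0) +
      Real.exp (-X / 2) +
      Real.exp (Lth x (2 * θ) t0 t1 F / 2 - X / 4 + 2 * x ^ 2 * l ^ 2 * (s - t0)) := by
  refine low_chi h hx h0 h01 h1 hs hL (slice h hc hx (h01.trans h1) hs l)
    (e3_ind_sq2 h hx s (l ^ 2)) (fun _ _ _ => ?_) (fun _ _ _ => ?_) (fun z0 z1 z2 hne => ?_)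
    (e3_ind_xi h hx t0 t1 X) (fun _ _ _ => ?_) (fun z0 z1 z2 hlt => ?_)
  · split_ifs <;> norm_num
  · split_ifs <;> norm_num
  · by_contra hn
    exact hne (if_neg hn)
  · split_ifs <;> norm_num
  · rw [if_pos hlt]

end Vale.Agent.P146.H327
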