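import Vale.Agent.P146.H327.Ax
import Vale.Agent.P146.H425.Sn

set_option linter.all false

/-!
The sum over the stages: from the chain inequality for every sequence of exponents to the
inequality averaged over the good exponents.
-/

open Finset

namespace Vale.Agent.P146.Gp.Avg

open Vale.Agent.P157.Lv Vale.Agent.P157.Lv.Sy
open Vale.Agent.P146.Ub.Ld Vale.Agent.P146.H784 Vale.Agent.P146.H785 Vale.Agent.P146.H425
open Vale.Agent.P157.Par (Path Exponents incr)

variable {n k N : ℕ} {β r lam : ℝ} {s : ℕ → ℝ}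

/-- The strengths of the fields. -/
noncomputable def sl (lam : ℝ) : ℕ → ℝ := fun l => if l = 0 then 0 else √lam

theorem sl_zero (lam : ℝ) : sl lam 0 = 0 := if_pos rfl

theorem sl_pos {l : ℕ} (hl : 1 ≤ l) (lam : ℝ) : sl lam l = √lam := if_neg (by omega)

theorem sl_nonneg (lam : ℝ) (l : ℕ) : 0 ≤ sl lam l := by
  unfold sl
  split_ifs
  · exact le_rfl
  · exact Real.sqrt_nonneg _

/-- The sum over the levels of the weighted variances of the overlaps, with the last level. -/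
noncomputable def VK (n k : ℕ) (m : ℕ → ℝ) (β : ℝ) {N : ℕ} (hN : N ≤ n) (s : ℕ → ℝ) : ℝ :=
  ∑ l ∈ Finset.Ico 1 (k + 2), (m (l + 1) - m l) *
    (SN n (k + 1) 1 m β N s).pairEx l (fun x x' => (Rov (Vale.Agent.P146.Ub.ph hN) x x' -
      (SN n (k + 1) 1 m β N s).Rl (Vale.Agent.P146.Ub.ph hN) l) ^ 2)

theorem VK_le (hN : N ≤ n) (h0 : 0 < N) {m : ℕ → ℝ} (hm : Exponents (k + 1) m)
    (hs : ∀ l ≤ k + 1, 0 ≤ s l) :
    VK n k m β hN s ≤ VT n k m β hN s + 4 * (m (k + 2) - m (k + 1)) := by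
  have F := SN_fld (d := 1) (β := β) (show 1 ≤ k + 1 by omega) hN h0 hm hs
  unfold VK VT
  rw [Finset.sum_Ico_succ_top (show 1 ≤ k + 1 by omega)]
  refine add_le_add le_rfl ?_
  rw [mul_comm]
  have hm1 : m (k + 1) < m (k + 2) := hm.2.2 (k + 1) le_rfl
  refine mul_le_mul_of_nonneg_right ?_ (by linarith)
  have hK : k + 1 ≤ (SN n (k + 1) 1 m β N s).K := le_rfl
  have h1 := F.Rl_nonneg hK
  have h2 := F.Rl_le_one hK
  rw [← F.hreg.pairEx_const hK 4]
  refine F.hreg.pairEx_mono hK fun x x' => ?_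
  have h3 := abs_le.1 (F.abs_Rov_le x x')
  have h4 : |Rov (Vale.Agent.P146.Ub.ph hN) x x' -
      (SN n (k + 1) 1 m β N s).Rl (Vale.Agent.P146.Ub.ph hN) (k + 1)| ≤ 2 :=
    abs_le.2 ⟨by linarith [h3.1], by linarith [h3.2]⟩
  have h5 := pow_le_pow_left₀ (abs_nonneg _) h4 2
  rw [sq_abs] at h5
  linarith

/-- The average over the good exponents at the stage `N`. -/
theorem sum_VK_le {J q : ℕ} (hN : N ≤ n) (h0 : 0 < N)
    (hr : 0 < r) (hr1 : r < 1) (hlam : 0 < lam) (hJ : 0 < J) (hq : 0 < q)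
    (h1 : 4 * k ^ 2 ≤ J * q) (h2 : 4 * (J : ℝ) * Real.exp (-((k : ℝ) / J)) ≤ 1)
    (hqn : n * lam ≤ q) :
    ∑ u ∈ Gset k J q, VK n k (mw r k (J * q) (srt (vl u))) β hN (sl lam) ≤
      (Gset k J q).card * (2 / J * (12 + 2 / (N * lam * r ^ 2)) +
        2 * √(5 / (J * (N * lam * r))) + 128 * k / (J * (r * (1 - r) * (lam * N)))) := by
  have hJ0 : (0 : ℝ) < J := by exact_mod_cast hJ
  have hJ1 : (1 : ℝ) ≤ J := by exact_mod_cast hJ
  have hq0 : (0 : ℝ) < q := by exact_mod_cast hq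
  have hN0 : (0 : ℝ) < N := by exact_mod_cast h0
  have hNn : (N : ℝ) ≤ n := by exact_mod_cast hN
  have hsm : r * ((1 - r) / (((J * q : ℕ) : ℝ) + 1)) * (N * lam) ≤ 1 := by
    have e : r * ((1 - r) / (((J * q : ℕ) : ℝ) + 1)) * (N * lam) =
        (r * (1 - r) * (N * lam)) / (((J * q : ℕ) : ℝ) + 1) := by ring
    rw [e, div_le_one (by positivity)]
    have a1 : r * (1 - r) ≤ 1 := by nlinarith
    have a2 : r * (1 - r) * (N * lam) ≤ 1 * (N * lam) :=
      mul_le_mul_of_nonneg_right a1 (by positivity)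
    have a3 : (N : ℝ) * lam ≤ n * lam := mul_le_mul_of_nonneg_right hNn hlam.le
    push_cast
    nlinarith
  have hs2 : ∀ l, 1 ≤ l → l ≤ k + 1 → sl lam l ^ 2 = lam := by
    intro l hl _
    rw [sl_pos hl, Real.sq_sqrt hlam.le]
  have h3 := sum_VT_le' (β := β) (s := sl lam) (D := Dv n r k (J * q) β N (sl lam)) hN h0
    (fun l _ => sl_nonneg lam l) (fun l hl _ => sl_pos hl lam) hr hr1 hlam hJ hq h1 h2
    (by
      rw [show lam * N / 2 = N * lam / 2 by ring]
      exact Dv_slp hr hr1 (sl_zero lam) hs2 hN h0)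
    (by
      intro w hw hb i
      have h4 := Dv_rho (L := J * q) (β := β) hr hr1 (sl_zero lam) hlam hs2 hN h0 hw.monotone
        (fun i => (hb i).2.trans (Nat.le_succ _)) (hb i).2
        (mono_up hw.monotone fun j hj => hw hj) hsm
      rw [mul_comm lam (N : ℝ)]
      exact h4)
  have hone : ∀ u ∈ Gset k J q, VK n k (mw r k (J * q) (srt (vl u))) β hN (sl lam) ≤
      VT n k (mw r k (J * q) (srt (vl u))) β hN (sl lam) + 8 / J := by
    intro u hu
    obtain ⟨hsm, hb, -, -, -, hk⟩ := gap_good hJ hq hu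
    have hm := mw_exp hr hr1 hsm hb
    have h5 := VK_le (β := β) (s := sl lam) hN h0 hm (fun l _ => sl_nonneg lam l)
    have h6 := mw_gap (r := r) hr.le hr1.le hJ hq hu (l := k + 1) (by omega)
    refine h5.trans (add_le_add le_rfl ?_)
    have e : 8 / (J : ℝ) = 4 * (2 / J) := by ring
    rw [e]
    exact mul_le_mul_of_nonneg_left h6 (by norm_num)
  refine (Finset.sum_le_sum hone).trans ?_
  rw [Finset.sum_add_distrib, Finset.sum_const, nsmul_eq_mul]
  refine (add_le_add h3 le_rfl).trans (le_of_eq ?_)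
  ring

/-- `VK` as a function of the stage. -/
noncomputable def VKd (n k : ℕ) (m : ℕ → ℝ) (β lam : ℝ) (N : ℕ) : ℝ :=
  if hN : N ≤ n then VK n k m β hN (sl lam) else 0

/-- **The sum over the stages.** `G` is bounded by the chain inequality for every sequence of
exponents. -/
theorem sumN {J : ℕ} {G C0 C : ℝ} (hC : 0 ≤ C)
    (hr : 0 < r) (hr1 : r ≤ 1 / 2) (hlam : 0 < lam) (hJ : 0 < J)
    (h2 : 4 * (J : ℝ) * Real.exp (-((k : ℝ) / J)) ≤ 1)
    (chain : ∀ m : ℕ → ℝ, Exponents (k + 1) m → m 1 = r →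
      G ≤ C0 + ∑ N ∈ Finset.Ico 1 n, C * VKd n k m β lam N) :
    G ≤ C0 + ∑ N ∈ Finset.Ico 1 n, C * (24 / J + 4 / (J * (N * lam * r ^ 2)) +
        2 * √(5 / (J * (N * lam * r))) + 256 * k / (J * (r * (lam * N)))) := by
  obtain ⟨q, hqdef⟩ : ∃ q : ℕ, q = 4 * k ^ 2 + ⌈n * lam⌉₊ + 1 := ⟨_, rfl⟩
  have hq : 0 < q := by omega
  have hJ0 : (0 : ℝ) < J := by exact_mod_cast hJ
  have hr1' : r < 1 := by linarith
  have h1 : 4 * k ^ 2 ≤ J * q := by
    have a1 : 4 * k ^ 2 ≤ q := by omega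
    exact a1.trans (Nat.le_mul_of_pos_left q hJ)
  have hqn : n * lam ≤ q := by
    have a1 := Nat.le_ceil ((n : ℝ) * lam)
    have a2 : ((⌈(n : ℝ) * lam⌉₊ : ℕ) : ℝ) ≤ q := by
      have : ⌈(n : ℝ) * lam⌉₊ ≤ q := by omega
      exact_mod_cast this
    exact a1.trans a2
  have hcard : (0 : ℝ) < (Gset k J q).card := by
    have a1 := card_good k J q hJ hq h1 h2
    have a2 : (0 : ℝ) < ((J * q : ℕ) : ℝ) := by
      have : 0 < J * q := Nat.mul_pos hJ hq
      exact_mod_cast this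
    have a3 : (0 : ℝ) < 1 / 2 * ((J * q : ℕ) : ℝ) ^ k := by positivity
    linarith
  have hsum : ∑ u ∈ Gset k J q, G ≤ ∑ u ∈ Gset k J q, (C0 + ∑ N ∈ Finset.Ico 1 n,
      C * VKd n k (mw r k (J * q) (srt (vl u))) β lam N) := by
    refine Finset.sum_le_sum fun u hu => ?_
    obtain ⟨hsm, hb, -, -, -, hk⟩ := gap_good hJ hq hu
    exact chain _ (mw_exp hr hr1' hsm hb) mw_one
  rw [Finset.sum_const, nsmul_eq_mul, Finset.sum_add_distrib, Finset.sum_const, nsmul_eq_mul,
    Finset.sum_comm] at hsum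
  have hN : ∀ N ∈ Finset.Ico 1 n, ∑ u ∈ Gset k J q,
      C * VKd n k (mw r k (J * q) (srt (vl u))) β lam N ≤ (Gset k J q).card *
        (C * (24 / J + 4 / (J * (N * lam * r ^ 2)) +
        2 * √(5 / (J * (N * lam * r))) + 256 * k / (J * (r * (lam * N))))) := by
    intro N hN
    rw [Finset.mem_Ico] at hN
    have h0 : 0 < N := by omega
    have hN0 : (0 : ℝ) < N := by exact_mod_cast h0
    have h3 := sum_VK_le (β := β) hN.2.le h0 hr hr1' hlam hJ hq h1 h2 hqn
    have e : ∀ u : Fin k → Fin (J * q), VKd n k (mw r k (J * q) (srt (vl u))) β lam N =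
        VK n k (mw r k (J * q) (srt (vl u))) β hN.2.le (sl lam) := fun u => dif_pos hN.2.le
    simp_rw [e]
    rw [← Finset.mul_sum]
    have h4 : 2 / (J : ℝ) * (12 + 2 / (N * lam * r ^ 2)) +
        2 * √(5 / (J * (N * lam * r))) + 128 * k / (J * (r * (1 - r) * (lam * N))) ≤
        24 / J + 4 / (J * (N * lam * r ^ 2)) +
        2 * √(5 / (J * (N * lam * r))) + 256 * k / (J * (r * (lam * N))) := by
      have a1 : 2 / (J : ℝ) * (12 + 2 / (N * lam * r ^ 2)) =
          24 / J + 4 / (J * (N * lam * r ^ 2)) := by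
        field_simp
        ring
      have a2 : 128 * k / (J * (r * (1 - r) * (lam * N))) ≤
          256 * k / (J * (r * (lam * N))) := by
        have h5 : (0 : ℝ) < 1 - r := by linarith
        rw [div_le_div_iff₀ (by positivity) (by positivity)]
        have h6 : (0 : ℝ) ≤ 128 * k * (J * (r * (lam * N))) := by positivity
        nlinarith
      rw [a1]
      linarith
    calc C * ∑ u ∈ Gset k J q, VK n k (mw r k (J * q) (srt (vl u))) β hN.2.le (sl lam)
        ≤ C * ((Gset k J q).card * (24 / J + 4 / (J * (N * lam * r ^ 2)) +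
        2 * √(5 / (J * (N * lam * r))) + 256 * k / (J * (r * (lam * N))))) :=
          mul_le_mul_of_nonneg_left (h3.trans (mul_le_mul_of_nonneg_left h4 hcard.le)) hC
      _ = _ := by ring
  have h7 := Finset.sum_le_sum hN
  rw [← Finset.mul_sum] at h7
  have h8 := hsum.trans (add_le_add le_rfl h7)
  rw [← mul_add] at h8
  exact le_of_mul_le_mul_left h8 hcard

end Vale.Agent.P146.Gp.Avg
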